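import Vale.Agent.P002.Prod.Jordan

/-!
P002: conjugation and eigenvalues of a generator in a sum of tensor blocks, for boundary conditions.
-/

namespace Vale.Agent.P002

open Matrix

universe u

variable {n C r : ℕ}

/-- Conjugation by an invertible matrix gives conjugation in `SL_r`. -/
theorem isConj_of_units (A B : SLC r) (U : (Matrix (Fin r) (Fin r) ℂ)ˣ)
    (h : (A : Matrix (Fin r) (Fin r) ℂ) = (U : Matrix (Fin r) (Fin r) ℂ) * B *
      ((U⁻¹ : (Matrix (Fin r) (Fin r) ℂ)ˣ) : Matrix (Fin r) (Fin r) ℂ)) : IsConj B A := by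
  rcases Nat.eq_zero_or_pos r with hr | hr
  · subst hr
    rw [show B = A from Subtype.ext (Subsingleton.elim _ _)]
  have hU : (U : Matrix (Fin r) (Fin r) ℂ).det ≠ 0 :=
    ((Matrix.isUnit_iff_isUnit_det _).1 U.isUnit).ne_zero
  obtain ⟨z, hz⟩ := IsAlgClosed.exists_pow_nat_eq (U : Matrix (Fin r) (Fin r) ℂ).det⁻¹ hr
  let Q : SLC r := ⟨z • (U : Matrix (Fin r) (Fin r) ℂ), by
    rw [Matrix.det_smul, Fintype.card_fin, hz, inv_mul_cancel₀ hU]⟩
  refine isConj_iff.2 ⟨Q, mul_inv_eq_iff_eq_mul.2 (Subtype.ext ?_)⟩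
  change (z • (U : Matrix (Fin r) (Fin r) ℂ)) * (B : Matrix (Fin r) (Fin r) ℂ) =
    (A : Matrix (Fin r) (Fin r) ℂ) * (z • (U : Matrix (Fin r) (Fin r) ℂ))
  rw [h, Matrix.smul_mul, Matrix.mul_smul]
  congr 1
  rw [mul_assoc _ _ (U : Matrix (Fin r) (Fin r) ℂ), U.inv_mul, mul_one]

variable {R : Type*} [CommRing R] (a : Fin C → Fin n → ℕ)

/-- Matrices in the slot of one factor, in every block. -/
def slotHom (i : Fin n) :
    (∀ c, Matrix (Fin (a c i)) (Fin (a c i)) R) →* Matrix (Idx a) (Idx a) R :=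
  (blockDiagonal'RingHom (fun c => ∀ i, Fin (a c i)) R).toMonoidHom.comp
    (MonoidHom.pi fun c => (tens (a c)).comp
      ((MonoidHom.mulSingle (fun j => Matrix (Fin (a c j)) (Fin (a c j)) R) i).comp
        (Pi.evalMonoidHom _ c)))

theorem slotHom_apply (i : Fin n) (X : ∀ c, Matrix (Fin (a c i)) (Fin (a c i)) R) :
    slotHom a i X = blockDiagonal' fun c => tens (a c) (Pi.mulSingle i (X c)) := rfl

theorem bigRep_single_eq {H : Fin n → Type u} [∀ i, Monoid (H i)]
    (σ : ∀ c i, H i →* Matrix (Fin (a c i)) (Fin (a c i)) R) (i : Fin n) (x : H i) :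
    bigRep a σ (Pi.mulSingle i x) = slotHom a i fun c => σ c i x := bigRep_single a σ i x

/-- Blockwise conjugate generators give conjugate sums. -/
theorem conj_bigRep_single {H : Fin n → Type u} [∀ i, Monoid (H i)]
    (σ σ' : ∀ c i, H i →* Matrix (Fin (a c i)) (Fin (a c i)) R) (i : Fin n) (x : H i)
    (U : ∀ c, (Matrix (Fin (a c i)) (Fin (a c i)) R)ˣ)
    (h : ∀ c, σ' c i x = (U c : Matrix (Fin (a c i)) (Fin (a c i)) R) * σ c i x *
      (((U c)⁻¹ : (Matrix (Fin (a c i)) (Fin (a c i)) R)ˣ) : Matrix (Fin (a c i)) (Fin (a c i)) R)) :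
    ∃ V : (Matrix (Idx a) (Idx a) R)ˣ, bigRep a σ' (Pi.mulSingle i x) =
      (V : Matrix (Idx a) (Idx a) R) * bigRep a σ (Pi.mulSingle i x) *
        ((V⁻¹ : (Matrix (Idx a) (Idx a) R)ˣ) : Matrix (Idx a) (Idx a) R) := by
  refine ⟨Units.map (slotHom a i) (MulEquiv.piUnits.symm U), ?_⟩
  rw [bigRep_single_eq, bigRep_single_eq, Units.coe_map, ← map_inv, Units.coe_map, ← map_mul,
    ← map_mul]
  congr 1
  funext c
  exact h c

/-- An eigenvalue of a block is an eigenvalue of the sum. -/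
theorem root_bigRep_single (hpos : ∀ c i, 0 < a c i) (σ : ∀ c i, Matrix (Fin (a c i)) (Fin (a c i)) ℂ)
    (i : Fin n) (c : Fin C) (z : ℂ) (hz : (σ c i).charpoly.IsRoot z) :
    (slotHom a i fun c => σ c i).charpoly.IsRoot z := by
  classical
  rw [Polynomial.IsRoot, Matrix.eval_charpoly] at hz ⊢
  have h : Matrix.scalar (Idx a) z - (slotHom a i fun c => σ c i) =
      slotHom a i fun c => Matrix.scalar (Fin (a c i)) z - σ c i := by
    ext ⟨c1, p⟩ ⟨c2, q⟩
    simp only [slotHom_apply, Matrix.sub_apply, Matrix.scalar_apply]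
    by_cases hc : c1 = c2
    · subst hc
      simp only [blockDiagonal'_apply_eq, tens_single_apply, Matrix.sub_apply, Matrix.diagonal_apply]
      have hpq : ((⟨c1, p⟩ : Idx a) = ⟨c1, q⟩) ↔ ((∀ j, j ≠ i → p j = q j) ∧ p i = q i) := by
        constructor
        · intro h
          rw [Sigma.mk.injEq, heq_eq_eq] at h
          exact ⟨fun j _ => congrFun h.2 j, congrFun h.2 i⟩
        · intro h
          refine congrArg _ (funext fun j => ?_)
          by_cases hj : j = i
          · subst hj; exact h.2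
          · exact h.1 j hj
      by_cases h1 : ∀ j, j ≠ i → p j = q j
      · rw [if_pos h1, if_pos h1]
        by_cases h2 : p i = q i
        · rw [if_pos (hpq.2 ⟨h1, h2⟩), if_pos h2]
        · rw [if_neg fun h => h2 (hpq.1 h).2, if_neg h2]
      · rw [if_neg h1, if_neg h1, if_neg fun h => h1 (hpq.1 h).1, sub_zero]
    · rw [blockDiagonal'_apply_ne _ _ _ hc, blockDiagonal'_apply_ne _ _ _ hc,
        Matrix.diagonal_apply_ne _ fun h => hc (congrArg Sigma.fst h), sub_zero]
  rw [h, slotHom_apply, det_blockDiag]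
  refine Finset.prod_eq_zero (Finset.mem_univ c) ?_
  rw [det_tens_single, hz, zero_pow]
  exact (Fintype.card_pos_iff.2 ⟨fun j => ⟨0, hpos c j⟩⟩).ne'

/-- Constants of algebraic integers as nice functions. -/
noncomputable def cstR {M : ℕ} {κ : Type} [DecidableEq κ] : OInt M →+* nice M κ where
  toFun c := ⟨fun _ => (c : ℂ), fun _ _ => isLaurent_const _, fun _ _ => c.2⟩
  map_one' := rfl
  map_zero' := rfl
  map_add' _ _ := rfl
  map_mul' _ _ := rfl

theorem ev_cstR {M : ℕ} {κ : Type} [DecidableEq κ] (t : κ → ℂˣ) :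
    (ev t).comp (cstR (M := M)) = (OInt M).subtype := rfl

theorem mapU_cstR {M d : ℕ} {κ : Type} [DecidableEq κ] (t : κ → ℂˣ)
    (J : (Matrix (Fin d) (Fin d) (OInt M))ˣ) :
    mapU (ev t) (mapU cstR J) = mapU (OInt M).subtype J := Units.ext rfl

end Vale.Agent.P002
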