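import Mathlib

/-!
P002: finite dimensional representations of a finite product of monoids.

An irreducible representation is a tensor product of irreducible representations of the factors
(in coordinates: a basis indexed by tuples, each factor acting in its own slot), and a semisimple one
is a direct sum of these.
-/

namespace Vale.Agent.P002

open Module Submodule

universe u

section Burnside

variable {G : Type u} [Monoid G] {V : Type} [AddCommGroup V] [Module ℂ V] [FiniteDimensional ℂ V]

/-- Burnside: the image of an irreducible representation spans all endomorphisms. -/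
theorem burnside [Nontrivial V] (σ : G →* Module.End ℂ V)
    (hirr : ∀ W : Submodule ℂ V, (∀ g, ∀ v ∈ W, σ g v ∈ W) → W = ⊥ ∨ W = ⊤) :
    span ℂ (Set.range σ) = ⊤ := by
  set A := Algebra.adjoin ℂ (Set.range σ) with hA
  have hAs : Subalgebra.toSubmodule A = span ℂ (Set.range σ) := by
    rw [hA, Algebra.adjoin_eq_span, ← MonoidHom.coe_mrange, Submonoid.closure_eq]
  have hmem : ∀ g, σ g ∈ A := fun g => Algebra.subset_adjoin ⟨g, rfl⟩
  have key : ∀ N : Submodule A V, N = ⊥ ∨ N = ⊤ := by
    intro N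
    rcases hirr (N.restrictScalars ℂ) (fun g v hv => N.smul_mem ⟨σ g, hmem g⟩ hv) with h | h
    · exact Or.inl (Submodule.restrictScalars_injective ℂ A V (by rw [h, restrictScalars_bot]))
    · exact Or.inr (Submodule.restrictScalars_injective ℂ A V (by rw [h, restrictScalars_top]))
  have : IsSimpleModule A V := { eq_bot_or_eq_top := key }
  have hscal : ∀ f : Module.End A V, ∃ μ : ℂ, ∀ v, f v = μ • v := by
    intro f
    set f' : Module.End ℂ V := f.restrictScalars ℂ
    obtain ⟨μ, hμ⟩ := Module.End.exists_eigenvalue f'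
    refine ⟨μ, fun v => ?_⟩
    have hinv : ∀ g, ∀ w ∈ Module.End.eigenspace f' μ, σ g w ∈ Module.End.eigenspace f' μ := by
      intro g w hw
      rw [Module.End.mem_eigenspace_iff] at hw ⊢
      change f ((⟨σ g, hmem g⟩ : A) • w) = μ • σ g w
      rw [map_smul]
      change σ g (f' w) = _
      rw [hw, map_smul]
    rcases hirr _ hinv with h | h
    · exact absurd h hμ
    · exact Module.End.mem_eigenspace_iff.1 (h ▸ Submodule.mem_top)
  rw [← hAs, eq_top_iff]
  rintro T -
  let T' : Module.End (Module.End A V) V :=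
    { toFun := T
      map_add' := map_add T
      map_smul' := fun f v => by
        obtain ⟨μ, hμ⟩ := hscal f
        simp only [Module.End.smul_def, RingHom.id_apply, hμ, map_smul] }
  classical
  set b := Module.finBasis ℂ V
  obtain ⟨r, hr⟩ := jacobson_density T' (Finset.univ.image b)
  have hrT : (r : Module.End ℂ V) = T :=
    b.ext fun i => (hr (b i) (Finset.mem_image_of_mem _ (Finset.mem_univ i))).symm
  exact hrT ▸ r.2

end Burnside

/-- An independent family spanning a subspace. -/
theorem exists_fam {M : Type} [AddCommGroup M] [Module ℂ M] [FiniteDimensional ℂ M]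
    (H : Submodule ℂ M) : ∃ c : Fin (finrank ℂ H) → M,
      LinearIndependent ℂ c ∧ H ≤ span ℂ (Set.range c) := by
  refine ⟨fun k => (Module.finBasis ℂ H k : M),
    (Module.finBasis ℂ H).linearIndependent.map' H.subtype H.ker_subtype, le_of_eq ?_⟩
  rw [show (fun k => (Module.finBasis ℂ H k : M)) = H.subtype ∘ Module.finBasis ℂ H from rfl,
    Set.range_comp, span_image, Basis.span_eq, map_subtype_top]

section Intertwine

variable {G : Type u} [Monoid G] {U V : Type} [AddCommGroup U] [Module ℂ U] [AddCommGroup V]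
  [Module ℂ V] (σ : G →* Module.End ℂ U) (ρ : G →* Module.End ℂ V)

/-- The intertwiners from `σ` to `ρ`. -/
def inter : Submodule ℂ (U →ₗ[ℂ] V) where
  carrier := {φ | ∀ x v, φ (σ x v) = ρ x (φ v)}
  zero_mem' x v := by simp
  add_mem' {φ ψ} hφ hψ x v := by simp [hφ x v, hψ x v]
  smul_mem' c φ hφ x v := by simp [hφ x v]

variable {σ ρ} {a0 : ℕ} (u : Basis (Fin a0) ℂ U) (hburn : span ℂ (Set.range σ) = ⊤)

include hburn in
/-- Values of intertwiners on a basis are independent. -/
theorem inter_indep (ψ : Fin a0 → inter σ ρ) (hψ : ∑ l, (ψ l).1 (u l) = 0) (l0 : Fin a0) :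
    ψ l0 = 0 := by
  classical
  refine Subtype.ext (u.ext fun l1 => ?_)
  have hX : ∀ X : Module.End ℂ U, ∑ l, (ψ l).1 (X (u l)) = 0 := by
    intro X
    have hXmem : X ∈ span ℂ (Set.range σ) := hburn ▸ mem_top
    induction hXmem using span_induction with
    | mem X hX =>
      obtain ⟨x, rfl⟩ := hX
      rw [Finset.sum_congr rfl fun l _ => (ψ l).2 x (u l), ← map_sum, hψ, map_zero]
    | zero => simp
    | add X Y _ _ hX hY => simp [Finset.sum_add_distrib, hX, hY]
    | smul c X _ hX => simp [← Finset.smul_sum, hX]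
  have h := hX (u.constr ℂ fun l => if l = l0 then u l1 else 0)
  rw [Finset.sum_eq_single l0 (fun l _ hl => by simp [hl])
    (fun h => absurd (Finset.mem_univ _) h)] at h
  simpa using h

/-- The values of an independent family of intertwiners on a basis. -/
noncomputable def evFam {κ : Type} (c : κ → inter σ ρ) (p : Fin a0 × κ) : V := (c p.2).1 (u p.1)

include hburn in
theorem evFam_li {κ : Type} [Fintype κ] (c : κ → inter σ ρ) (hc : LinearIndependent ℂ c) :
    LinearIndependent ℂ (evFam u c) := by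
  rw [Fintype.linearIndependent_iff]
  intro g hg p
  have h0 := inter_indep u hburn (fun l => ∑ k, g (l, k) • c k) (by
    rw [← hg, Fintype.sum_prod_type]
    refine Finset.sum_congr rfl fun l _ => ?_
    rw [AddSubmonoidClass.coe_finsetSum, LinearMap.coe_sum, Finset.sum_apply]
    rfl) p.1
  exact Fintype.linearIndependent_iff.1 hc (fun k => g (p.1, k)) h0 p.2

theorem evFam_span {κ : Type} (c : κ → inter σ ρ) {H' : Submodule ℂ (inter σ ρ)}
    (hc : H' ≤ span ℂ (Set.range c)) {φ : inter σ ρ} (hφ : φ ∈ H') (w : U) :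
    φ.1 w ∈ span ℂ (Set.range (evFam u c)) := by
  have hmem := hc hφ
  clear hφ
  induction hmem using span_induction with
  | mem x hx =>
    obtain ⟨k, rfl⟩ := hx
    rw [← u.sum_repr w, map_sum]
    exact sum_mem fun l _ => by rw [map_smul]; exact smul_mem _ _ (subset_span ⟨(l, k), rfl⟩)
  | zero => simp
  | add x y _ _ hx hy => exact add_mem hx hy
  | smul t x _ hx => exact smul_mem _ t hx

variable {n : ℕ} {G' : Fin n → Type u} [∀ i, Monoid (G' i)] (ρs : ∀ i, G' i →* Module.End ℂ V)
  (hcomm : ∀ i y x, Commute (ρs i y) (ρ x))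

/-- The other factors act on the intertwiners by composition. -/
def post (i : Fin n) : G' i →* Module.End ℂ (inter σ ρ) where
  toFun y :=
    { toFun := fun φ => ⟨(ρs i y).comp φ.1, fun x v => by
        rw [LinearMap.comp_apply, φ.2 x v, LinearMap.comp_apply, ← Module.End.mul_apply,
          (hcomm i y x).eq, Module.End.mul_apply]⟩
      map_add' := fun φ ψ => Subtype.ext (LinearMap.ext fun v => by simp)
      map_smul' := fun c φ => Subtype.ext (LinearMap.ext fun v => by simp) }
  map_one' := LinearMap.ext fun φ => Subtype.ext (LinearMap.ext fun v => by simp)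
  map_mul' x y := LinearMap.ext fun φ => Subtype.ext (LinearMap.ext fun v => by simp)

theorem post_apply (i : Fin n) (y : G' i) (φ : inter σ ρ) (v : U) :
    (post (σ := σ) ρs hcomm i y φ).1 v = ρs i y (φ.1 v) := rfl

variable (hirr : ∀ W : Submodule ℂ V,
  (∀ x, ∀ v ∈ W, ρ x v ∈ W) → (∀ i y, ∀ v ∈ W, ρs i y v ∈ W) → W = ⊥ ∨ W = ⊤)

include hirr in
/-- An invariant nonzero family of intertwiners covers the whole space. -/
theorem post_span (H' : Submodule ℂ (inter σ ρ)) (hne : H' ≠ ⊥)
    (hinv : ∀ i y, ∀ φ ∈ H', post (σ := σ) ρs hcomm i y φ ∈ H') {κ : Type} (c : κ → inter σ ρ)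
    (hc : H' ≤ span ℂ (Set.range c)) : ⊤ ≤ span ℂ (Set.range (evFam u c)) := by
  set S : Submodule ℂ V := span ℂ {v | ∃ φ ∈ H', ∃ w : U, φ.1 w = v} with hS
  have hS1 : S ≤ span ℂ (Set.range (evFam u c)) := by
    rw [hS, span_le]
    rintro _ ⟨φ, hφ, w, rfl⟩
    exact evFam_span u c hc hφ w
  refine le_trans (le_of_eq ?_) hS1
  refine ((hirr S ?_ ?_).resolve_left ?_).symm
  · intro x v hv
    change v ∈ S.comap (ρ x)
    refine (span_le.2 ?_) hv
    rintro _ ⟨φ, hφ, w, rfl⟩
    exact subset_span ⟨φ, hφ, σ x w, φ.2 x w⟩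
  · intro i y v hv
    change v ∈ S.comap (ρs i y)
    refine (span_le.2 ?_) hv
    rintro _ ⟨φ, hφ, w, rfl⟩
    exact subset_span ⟨_, hinv i y φ hφ, w, rfl⟩
  · intro hbot
    obtain ⟨φ, hφ, hφ0⟩ := exists_mem_ne_zero_of_ne_bot hne
    refine hφ0 (Subtype.ext (LinearMap.ext fun w => ?_))
    have h1 : φ.1 w ∈ S := subset_span ⟨φ, hφ, w, rfl⟩
    rw [hbot, mem_bot] at h1
    exact h1

include u hburn hirr in
theorem post_dim [FiniteDimensional ℂ U] [FiniteDimensional ℂ V] (H' : Submodule ℂ (inter σ ρ))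
    (hne : H' ≠ ⊥) (hinv : ∀ i y, ∀ φ ∈ H', post (σ := σ) ρs hcomm i y φ ∈ H') :
    a0 * finrank ℂ H' = finrank ℂ V := by
  obtain ⟨c, hc1, hc2⟩ := exists_fam H'
  have h1 := evFam_li u hburn c hc1
  have h2 := post_span u ρs hcomm hirr H' hne hinv c hc2
  rw [Module.finrank_eq_card_basis (Basis.mk h1 h2), Fintype.card_prod, Fintype.card_fin,
    Fintype.card_fin]

include u hburn hirr in
/-- The intertwiners form an irreducible representation of the other factors. -/
theorem post_irred [FiniteDimensional ℂ U] [FiniteDimensional ℂ V] (ha0 : 0 < a0)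
    (hne : (⊤ : Submodule ℂ (inter σ ρ)) ≠ ⊥) (W : Submodule ℂ (inter σ ρ))
    (hW : ∀ i y, ∀ φ ∈ W, post (σ := σ) ρs hcomm i y φ ∈ W) : W = ⊥ ∨ W = ⊤ := by
  by_cases hW0 : W = ⊥
  · exact Or.inl hW0
  refine Or.inr (eq_top_of_finrank_eq ?_)
  have h1 := post_dim (u := u) hburn ρs hcomm hirr W hW0 hW
  have h2 := post_dim (u := u) hburn ρs hcomm hirr ⊤ hne fun _ _ _ _ => mem_top
  rw [finrank_top] at h2
  exact Nat.eq_of_mul_eq_mul_left ha0 (h1.trans h2.symm)

end Intertwine

/-- Irreducible representations of products: a basis of tuples, each factor in its own slot. -/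
theorem irred_tens : ∀ (n : ℕ) (G : Fin n → Type u) [∀ i, Monoid (G i)] (V : Type)
    [AddCommGroup V] [Module ℂ V] [FiniteDimensional ℂ V] [Nontrivial V]
    (ρ : ∀ i, G i →* Module.End ℂ V),
    (∀ i j, i ≠ j → ∀ x y, Commute (ρ i x) (ρ j y)) →
    (∀ W : Submodule ℂ V, (∀ i x, ∀ v ∈ W, ρ i x v ∈ W) → W = ⊥ ∨ W = ⊤) →
    ∃ (a : Fin n → ℕ) (σ : ∀ i, G i →* Matrix (Fin (a i)) (Fin (a i)) ℂ)
      (b : Basis (∀ i, Fin (a i)) ℂ V),
      (∀ i, 0 < a i) ∧ (∀ i, span ℂ (Set.range (σ i)) = ⊤) ∧
      ∀ i x q, ρ i x (b q) = ∑ p : Fin (a i), σ i x p (q i) • b (Function.update q i p) := by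
  intro n
  induction n with
  | zero =>
    intro G _ V _ _ _ _ ρ _ hirr
    obtain ⟨v, hv⟩ := exists_ne (0 : V)
    have htop : span ℂ {v} = ⊤ :=
      (hirr _ fun i => i.elim0).resolve_left fun h => hv (span_singleton_eq_bot.1 h)
    let b : Basis (∀ i : Fin 0, Fin ((fun _ => 1) i : ℕ)) ℂ V :=
      Basis.mk (v := fun _ => v) (LinearIndependent.of_subsingleton default hv)
        (by rw [Set.range_const, htop])
    exact ⟨fun _ => 1, fun i => i.elim0, b, fun i => i.elim0, fun i => i.elim0, fun i => i.elim0⟩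
  | succ n ih =>
    intro G _ V _ _ _ _ ρ hcomm hirr
    classical
    -- a minimal invariant subspace of the first factor
    let S : Set (Submodule ℂ V) := {W | W ≠ ⊥ ∧ ∀ x, ∀ v ∈ W, ρ 0 x v ∈ W}
    obtain ⟨U, ⟨hU0, hUinv⟩, hUmin⟩ :=
      (wellFounded_lt (α := Submodule ℂ V)).has_min S
        ⟨⊤, top_ne_bot, fun _ _ _ => mem_top⟩
    have : Nontrivial U := nontrivial_iff_ne_bot.2 hU0
    let σU : G 0 →* Module.End ℂ U :=
      { toFun := fun x => (ρ 0 x).restrict (hUinv x)
        map_one' := LinearMap.ext fun v => Subtype.ext (by simp)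
        map_mul' := fun x y => LinearMap.ext fun v => Subtype.ext (by simp) }
    have hUirr : ∀ W : Submodule ℂ U, (∀ g, ∀ v ∈ W, σU g v ∈ W) → W = ⊥ ∨ W = ⊤ := by
      intro W hW
      by_cases hbot : W.map U.subtype = ⊥
      · exact Or.inl (map_injective_of_injective U.injective_subtype (by rw [hbot, Submodule.map_bot]))
      have hinv : ∀ x, ∀ v ∈ W.map U.subtype, ρ 0 x v ∈ W.map U.subtype := by
        rintro x _ ⟨v, hv, rfl⟩
        exact ⟨σU x v, hW x v hv, rfl⟩
      have hle : W.map U.subtype ≤ U := map_subtype_le U W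
      have hnot : ¬ W.map U.subtype < U := hUmin _ ⟨hbot, hinv⟩
      have heq : W.map U.subtype = U := eq_of_le_of_not_lt hle hnot
      refine Or.inr (map_injective_of_injective U.injective_subtype ?_)
      rw [heq, map_subtype_top]
    have hburn := burnside σU hUirr
    set a0 := finrank ℂ U
    have ha0 : 0 < a0 := Module.finrank_pos
    set u := Module.finBasis ℂ U
    -- intertwiners
    have hc0 : ∀ (i : Fin n) y x, Commute (ρ i.succ y) (ρ 0 x) :=
      fun i y x => hcomm _ _ (Fin.succ_ne_zero i) y x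
    have hirr0 : ∀ W : Submodule ℂ V, (∀ x, ∀ v ∈ W, ρ 0 x v ∈ W) →
        (∀ (i : Fin n) y, ∀ v ∈ W, ρ i.succ y v ∈ W) → W = ⊥ ∨ W = ⊤ :=
      fun W h1 h2 => hirr W fun i => Fin.cases h1 h2 i
    have : Nontrivial (inter σU (ρ 0)) := ⟨⟨⟨U.subtype, fun x v => rfl⟩, 0, fun h => by
      obtain ⟨w, hw⟩ := exists_ne (0 : U)
      exact hw (Subtype.ext (congrArg (fun φ : inter σU (ρ 0) => φ.1 w) h))⟩⟩
    obtain ⟨a', σ', b', hpos, hσspan, hb'⟩ := ih (fun i => G i.succ) (inter σU (ρ 0))
      (post (σ := σU) (fun i => ρ i.succ) hc0) (fun i j hij x y =>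
        LinearMap.ext fun φ => Subtype.ext (LinearMap.ext fun v => LinearMap.congr_fun
          (hcomm _ _ (fun e => hij (Fin.succ_injective _ e)) x y).eq (φ.1 v)))
      (post_irred u hburn _ hc0 hirr0 ha0 top_ne_bot)
    let B := Basis.mk (evFam_li u hburn b' b'.linearIndependent)
      (post_span u (fun i => ρ i.succ) hc0 hirr0 ⊤ top_ne_bot (fun _ _ _ _ => mem_top) b'
        b'.span_eq.ge)
    let e : Fin a0 × (∀ i : Fin n, Fin (a' i)) ≃
        ∀ i : Fin (n + 1), Fin ((Fin.cons a0 a' : Fin (n + 1) → ℕ) i) :=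
      Fin.consEquiv fun i => Fin ((Fin.cons a0 a' : Fin (n + 1) → ℕ) i)
    have hBq : ∀ q, (B.reindex e) q = (b' (Fin.tail q)).1 (u (q 0)) := fun q => by
      simp only [B, Basis.reindex_apply, Basis.mk_apply]
      rfl
    let σ0 : G 0 →* Matrix (Fin a0) (Fin a0) ℂ :=
      (LinearMap.toMatrixAlgEquiv u).toAlgHom.toRingHom.toMonoidHom.comp σU
    refine ⟨Fin.cons a0 a', Fin.cases σ0 σ', B.reindex e, ?_, ?_, ?_⟩
    · intro i
      induction i using Fin.cases with
      | zero => exact ha0
      | succ i => exact hpos i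
    · intro i
      induction i using Fin.cases with
      | zero =>
        change span ℂ (Set.range σ0) = ⊤
        have : Set.range σ0 = (LinearMap.toMatrixAlgEquiv u).toLinearMap '' Set.range σU := by
          rw [← Set.range_comp]; rfl
        rw [this, span_image, hburn, Submodule.map_top, LinearMap.range_eq_top]
        exact (LinearMap.toMatrixAlgEquiv u).surjective
      | succ i => exact hσspan i
    · intro i
      induction i using Fin.cases with
      | zero =>
        intro x q
        rw [hBq, ← (b' (Fin.tail q)).2 x (u (q 0))]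
        have hexp : σU x (u (q 0)) = ∑ p, σ0 x p (q 0) • u p := by
          conv_lhs => rw [← u.sum_repr (σU x (u (q 0)))]
          refine Finset.sum_congr rfl fun p _ => ?_
          congr 1
          exact (LinearMap.toMatrixAlgEquiv_apply u (σU x) p (q 0)).symm
        rw [hexp, map_sum]
        refine Finset.sum_congr rfl fun (p : Fin a0) _ => ?_
        rw [map_smul, hBq]
        erw [Fin.tail_update_zero, Function.update_self]
        rfl
      | succ i =>
        intro x q
        rw [hBq]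
        have h1 := congrArg (fun φ : inter σU (ρ 0) => φ.1 (u (q 0))) (hb' i x (Fin.tail q))
        simp only [AddSubmonoidClass.coe_finsetSum, SetLike.val_smul, LinearMap.coe_sum,
          Finset.sum_apply, LinearMap.smul_apply] at h1
        refine h1.trans (Finset.sum_congr rfl fun (p : Fin (a' i)) _ => ?_)
        rw [hBq]
        erw [Fin.tail_update_succ, Function.update_of_ne (Fin.succ_ne_zero i).symm]
        rfl

/-- Invariant subspaces of semisimple representations of products split into tensor blocks. -/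
theorem blocks_of_semisimple {n : ℕ} (G : Fin n → Type u) [∀ i, Monoid (G i)] {V : Type}
    [AddCommGroup V] [Module ℂ V] [FiniteDimensional ℂ V]
    (ρ : ∀ i, G i →* Module.End ℂ V)
    (hcomm : ∀ i j, i ≠ j → ∀ x y, Commute (ρ i x) (ρ j y))
    (hss : ∀ W : Submodule ℂ V, (∀ i x, ∀ v ∈ W, ρ i x v ∈ W) →
      ∃ W', (∀ i x, ∀ v ∈ W', ρ i x v ∈ W') ∧ IsCompl W W') :
    ∀ (d : ℕ) (W : Submodule ℂ V), finrank ℂ W = d → (∀ i x, ∀ v ∈ W, ρ i x v ∈ W) →
    ∃ (C : Type) (_ : Fintype C) (a : C → Fin n → ℕ)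
      (σ : ∀ c i, G i →* Matrix (Fin (a c i)) (Fin (a c i)) ℂ)
      (b : Basis (Σ c, ∀ i, Fin (a c i)) ℂ W),
      (∀ c i, 0 < a c i) ∧ (∀ c i, span ℂ (Set.range (σ c i)) = ⊤) ∧
      ∀ c i x q, ρ i x (b ⟨c, q⟩ : V) =
        ∑ p : Fin (a c i), σ c i x p (q i) • (b ⟨c, Function.update q i p⟩ : V) := by
  intro d
  induction d using Nat.strong_induction_on with
  | _ d ih =>
  intro W hd hW
  by_cases hW0 : W = ⊥
  · subst hW0
    exact ⟨Empty, inferInstance, Empty.elim, fun c => c.elim, Basis.empty _, fun c => c.elim,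
      fun c => c.elim, fun c => c.elim⟩
  by_cases hirr : ∀ U ≤ W, (∀ i x, ∀ v ∈ U, ρ i x v ∈ U) → U = ⊥ ∨ U = W
  · have : Nontrivial W := nontrivial_iff_ne_bot.2 hW0
    let ρW : ∀ i, G i →* Module.End ℂ W := fun i =>
      { toFun := fun x => (ρ i x).restrict (hW i x)
        map_one' := LinearMap.ext fun v => Subtype.ext (by simp)
        map_mul' := fun x y => LinearMap.ext fun v => Subtype.ext (by simp) }
    obtain ⟨a, σ, b, h1, h2, h3⟩ := irred_tens n G W ρW
      (fun i j hij x y => LinearMap.ext fun v => Subtype.ext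
        (LinearMap.congr_fun (hcomm i j hij x y).eq v.1)) (fun U hU => by
      rcases hirr (U.map W.subtype) (map_subtype_le W U) (fun i x v hv => by
          obtain ⟨v, hv, rfl⟩ := hv
          exact ⟨ρW i x v, hU i x v hv, rfl⟩) with h | h
      · exact Or.inl (map_injective_of_injective W.injective_subtype (by rw [h, Submodule.map_bot]))
      · exact Or.inr (map_injective_of_injective W.injective_subtype
          (by rw [h, map_subtype_top])))
    refine ⟨Unit, inferInstance, fun _ => a, fun _ => σ, b.reindex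
      (Equiv.uniqueSigma fun _ : Unit => ∀ i, Fin (a i)).symm, fun _ => h1,
      fun _ => h2, fun c i x q => ?_⟩
    have hc : c = default := Subsingleton.elim _ _
    subst hc
    have h := congrArg Subtype.val (h3 i x q)
    simp only [AddSubmonoidClass.coe_finsetSum, SetLike.val_smul] at h
    simpa [Equiv.uniqueSigma, ρW] using h
  push Not at hirr
  obtain ⟨U, hUW, hU, hU0, hUne⟩ := hirr
  obtain ⟨U', hU', hc⟩ := hss U hU
  set Q := U' ⊓ W with hQ
  have hsup : U ⊔ Q = W := by
    rw [hQ, ← sup_inf_assoc_of_le U' hUW, hc.sup_eq_top, top_inf_eq]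
  have hdis : Disjoint U Q := hc.disjoint.mono_right inf_le_left
  have hQlt : Q < W := by
    refine lt_of_le_of_ne inf_le_right fun h => hU0 ?_
    rw [h] at hdis
    exact hdis.eq_bot_of_le hUW
  obtain ⟨C1, _, a1, σ1, b1, p1, s1, e1⟩ := ih _ (hd ▸ Submodule.finrank_lt_finrank_of_lt
    (lt_of_le_of_ne hUW hUne)) U rfl hU
  obtain ⟨C2, _, a2, σ2, b2, p2, s2, e2⟩ := ih _ (hd ▸ Submodule.finrank_lt_finrank_of_lt hQlt) Q rfl
    fun i x v hv => ⟨hU' i x v hv.1, hW i x v hv.2⟩
  clear ih
  let f : U × Q →ₗ[ℂ] W := (inclusion hUW).coprod (inclusion hQlt.le)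
  have hf : Function.Bijective f := by
    refine ⟨(injective_iff_map_eq_zero f).2 fun z hz => ?_, fun w => ?_⟩
    · have h0 : (z.1 : V) + z.2 = 0 := congrArg Subtype.val hz
      have h1 : (z.1 : V) = 0 := disjoint_def.1 hdis _ z.1.2
        (by rw [eq_neg_of_add_eq_zero_left h0]; exact neg_mem z.2.2)
      rw [h1, zero_add] at h0
      exact Prod.ext (Subtype.ext h1) (Subtype.ext h0)
    · have hw : (w : V) ∈ U ⊔ Q := by rw [hsup]; exact w.2
      obtain ⟨y, hy, z, hz, e⟩ := mem_sup.1 hw
      exact ⟨(⟨y, hy⟩, ⟨z, hz⟩), Subtype.ext e⟩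
  refine ⟨C1 ⊕ C2, inferInstance, Sum.elim a1 a2, fun c => ?_,
    ((b1.prod b2).map (LinearEquiv.ofBijective f hf)).reindex
      (Equiv.sumSigmaDistrib fun c => ∀ i, Fin (Sum.elim a1 a2 c i)).symm, ?_, ?_, ?_⟩
  · exact match c with
      | Sum.inl c => σ1 c
      | Sum.inr c => σ2 c
  · rintro (c | c) i
    exacts [p1 c i, p2 c i]
  · rintro (c | c) i
    exacts [s1 c i, s2 c i]
  rintro (c | c) i x q
  · refine Eq.trans ?_ ((e1 c i x q).trans (Finset.sum_congr rfl fun p _ => ?_))
    · congr 1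
      erw [Basis.reindex_apply, Equiv.symm_symm, Basis.map_apply]
      simp [f, Equiv.sumSigmaDistrib]
    · congr 1
      erw [Basis.reindex_apply, Equiv.symm_symm, Basis.map_apply]
      simp [f, Equiv.sumSigmaDistrib]
  · refine Eq.trans ?_ ((e2 c i x q).trans (Finset.sum_congr rfl fun p _ => ?_))
    · congr 1
      erw [Basis.reindex_apply, Equiv.symm_symm, Basis.map_apply]
      simp [f, Equiv.sumSigmaDistrib]
    · congr 1
      erw [Basis.reindex_apply, Equiv.symm_symm, Basis.map_apply]
      simp [f, Equiv.sumSigmaDistrib]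

end Vale.Agent.P002
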