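import Vale.Agent.P002.Prod.Param

/-!
P002: every complex matrix is conjugate to one whose entries are `0`, `1` or eigenvalues; with
eigenvalues roots of unity it becomes a unit over the algebraic integers of a cyclotomic field.
-/

namespace Vale.Agent.P002

open Polynomial Module
open scoped DirectSum

/-- A cyclic torsion module with one root has a basis on which `X` is bidiagonal. -/
theorem exists_piece (μ : ℂ) (e : ℕ) :
    ∃ v : Basis (Fin e) ℂ (ℂ[X] ⧸ ℂ[X] ∙ (X - C μ) ^ e),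
      ∀ k : Fin e, (X : ℂ[X]) • v k =
        μ • v k + if h : (k : ℕ) + 1 < e then v ⟨k + 1, h⟩ else 0 := by
  set I : Submodule ℂ[X] ℂ[X] := ℂ[X] ∙ (X - C μ) ^ e with hI
  let w : Fin e → ℂ[X] ⧸ I := fun k => Submodule.Quotient.mk ((X - C μ) ^ (k : ℕ))
  have hz : ∀ q : ℕ, e ≤ q → (Submodule.Quotient.mk ((X - C μ) ^ q) : ℂ[X] ⧸ I) = 0 := by
    intro q hq
    rw [Submodule.Quotient.mk_eq_zero, hI, Submodule.mem_span_singleton]
    exact ⟨(X - C μ) ^ (q - e), by rw [smul_eq_mul, ← pow_add, Nat.sub_add_cancel hq]⟩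
  have hspan : ⊤ ≤ Submodule.span ℂ (Set.range w) := by
    rintro x -
    obtain ⟨f, rfl⟩ := Submodule.Quotient.mk_surjective I x
    rw [← sum_taylor_eq f μ, Polynomial.sum_def]
    change (Submodule.mkQ I).restrictScalars ℂ (∑ q ∈ _, _) ∈ _
    rw [map_sum]
    refine Submodule.sum_mem _ fun q _ => ?_
    rw [show C ((taylor μ f).coeff q) * (X - C μ) ^ q =
      ((taylor μ f).coeff q) • (X - C μ) ^ q from (smul_eq_C_mul _).symm, map_smul]
    refine Submodule.smul_mem _ _ ?_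
    by_cases hq : q < e
    · exact Submodule.subset_span ⟨⟨q, hq⟩, rfl⟩
    · change (Submodule.Quotient.mk ((X - C μ) ^ q) : ℂ[X] ⧸ I) ∈ _
      rw [hz q (not_lt.1 hq)]
      exact Submodule.zero_mem _
  have hrank : finrank ℂ (ℂ[X] ⧸ I) = e := by
    rw [hI, finrank_quotient_span_eq_natDegree, natDegree_pow, natDegree_X_sub_C, mul_one]
  refine ⟨basisOfTopLeSpanOfCardEqFinrank w hspan (by rw [Fintype.card_fin, hrank]), fun k => ?_⟩
  simp only [coe_basisOfTopLeSpanOfCardEqFinrank, w]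
  split_ifs with h
  · rw [← Submodule.Quotient.mk_smul, ← Submodule.Quotient.mk_smul, ← Submodule.Quotient.mk_add]
    congr 1
    rw [smul_eq_mul, smul_eq_C_mul, pow_succ]
    ring
  · rw [add_zero, ← Submodule.Quotient.mk_smul, ← Submodule.Quotient.mk_smul, ← sub_eq_zero,
      ← Submodule.Quotient.mk_sub, show (X : ℂ[X]) • (X - C μ) ^ (k : ℕ) - μ • (X - C μ) ^ (k : ℕ) =
        (X - C μ) ^ ((k : ℕ) + 1) by rw [smul_eq_mul, smul_eq_C_mul, pow_succ]; ring]
    exact hz _ (not_lt.1 h)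

/-- A monic linear generator of the ideal of a power of an irreducible polynomial. -/
theorem exists_root_span (p : ℂ[X]) (hp : Irreducible p) :
    ∃ μ : ℂ, ∀ e : ℕ, (ℂ[X] ∙ p ^ e) = ℂ[X] ∙ (X - C μ) ^ e := by
  have hd := IsAlgClosed.degree_eq_one_of_irreducible ℂ hp
  obtain ⟨μ, hμ⟩ := Polynomial.exists_root_of_degree_eq_one hd
  refine ⟨μ, fun e => ?_⟩
  have h1 : Associated (X - C μ) p :=
    (Polynomial.irreducible_X_sub_C μ).associated_of_dvd hp (dvd_iff_isRoot.2 hμ)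
  exact ((Ideal.span_singleton_eq_span_singleton).2 (h1.pow_pow (n := e))).symm

/-- Bidiagonal normal form, up to conjugation. -/
theorem exists_normal {d : ℕ} (A : Matrix (Fin d) (Fin d) ℂ) :
    ∃ (P : (Matrix (Fin d) (Fin d) ℂ)ˣ) (J : Matrix (Fin d) (Fin d) ℂ),
      A = (P : Matrix (Fin d) (Fin d) ℂ) * J * ((P⁻¹ : (Matrix (Fin d) (Fin d) ℂ)ˣ) :
        Matrix (Fin d) (Fin d) ℂ) ∧
      ∀ p q, J p q = 0 ∨ J p q = 1 ∨ A.charpoly.IsRoot (J p q) := by
  classical
  set T : Module.End ℂ (Fin d → ℂ) := Matrix.toLin' A with hT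
  have : Module.Finite ℂ[X] (AEval' T) := inferInstance
  have htors : Module.IsTorsion ℂ[X] (AEval' T) := AEval.isTorsion_of_finiteDimensional ℂ _ T
  obtain ⟨ι, _, p, hp, e, ⟨E⟩⟩ := Module.equiv_directSum_of_isTorsion htors
  choose μ hμ using fun i => exists_root_span (p i) (hp i)
  let E1 : AEval' T ≃ₗ[ℂ[X]] ⨁ i, ℂ[X] ⧸ ℂ[X] ∙ (X - C (μ i)) ^ e i :=
    E.trans (DFinsupp.mapRange.linearEquiv fun i => Submodule.quotEquivOfEq _ _ (hμ i (e i)))
  choose v hv using fun i => exists_piece (μ i) (e i)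
  let B0 : Basis (Σ i, Fin (e i)) ℂ (⨁ i, ℂ[X] ⧸ ℂ[X] ∙ (X - C (μ i)) ^ e i) :=
    DFinsupp.basis v
  let toV : (⨁ i, ℂ[X] ⧸ ℂ[X] ∙ (X - C (μ i)) ^ e i) ≃ₗ[ℂ] (Fin d → ℂ) :=
    (E1.symm.restrictScalars ℂ).trans (AEval'.of T).symm
  let B1 : Basis (Σ i, Fin (e i)) ℂ (Fin d → ℂ) := B0.map toV
  let en := B1.indexEquiv (Pi.basisFun ℂ (Fin d))
  let B := B1.reindex en
  have hX : ∀ z, T (toV z) = toV ((X : ℂ[X]) • z) := by
    intro z
    simp only [toV, LinearEquiv.trans_apply, LinearEquiv.restrictScalars_apply, map_smul]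
    rw [AEval'.of_symm_X_smul]
  have hact : ∀ i (k : Fin (e i)), T (B1 ⟨i, k⟩) =
      μ i • B1 ⟨i, k⟩ + if h : (k : ℕ) + 1 < e i then B1 ⟨i, ⟨k + 1, h⟩⟩ else 0 := by
    intro i k
    have hB0 : ∀ q : Fin (e i), B0 ⟨i, q⟩ =
        DirectSum.lof ℂ[X] ι (fun i => ℂ[X] ⧸ ℂ[X] ∙ (X - C (μ i)) ^ e i) i (v i q) := by
      intro q
      simp [B0, DFinsupp.basis, DirectSum.lof]
      rfl
    simp only [B1, Basis.map_apply, hX, hB0, ← map_smul, hv i k, map_add]
    congr 1
    · exact congrArg toV (LinearMap.map_smul_of_tower _ _ _)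
    · split_ifs with h
      · rfl
      · simp
  have hroot : ∀ i, 0 < e i → A.charpoly.IsRoot (μ i) := by
    intro i hi
    rw [← Matrix.charpoly_toLin', ← Module.End.hasEigenvalue_iff_isRoot_charpoly]
    refine Module.End.hasEigenvalue_of_hasEigenvector (x := B1 ⟨i, ⟨e i - 1, by omega⟩⟩)
      ⟨?_, Basis.ne_zero _ _⟩
    rw [Module.End.mem_eigenspace_iff, hT.symm, hact, dif_neg (by simp only; omega), add_zero]
  let P0 : Matrix (Fin d) (Fin d) ℂ := Matrix.of fun a q => B q a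
  have hP : IsUnit P0 := Matrix.linearIndependent_cols_iff_isUnit.1 B.linearIndependent
  let J : Matrix (Fin d) (Fin d) ℂ := Matrix.of fun a q => B.repr (T (B q)) a
  refine ⟨hP.unit, J, ?_, fun a q => ?_⟩
  · have h1 : A * P0 = P0 * J := by
      ext a q
      have h2 := congrFun (B.sum_repr (T (B q))) a
      rw [Finset.sum_apply] at h2
      have h3 : (A * P0) a q = T (B q) a := by
        simp [hT, Matrix.mul_apply, Matrix.mulVec, dotProduct, P0]
      rw [h3, ← h2, Matrix.mul_apply]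
      exact Finset.sum_congr rfl fun c _ => by simp [P0, J, mul_comm]
    rw [IsUnit.unit_spec, ← h1, mul_assoc, IsUnit.mul_val_inv, mul_one]
  · obtain ⟨⟨i, k⟩, rfl⟩ := en.surjective q
    have hq : B (en ⟨i, k⟩) = B1 ⟨i, k⟩ := by rw [Basis.reindex_apply, Equiv.symm_apply_apply]
    simp only [J, Matrix.of_apply]
    rw [hq, hact, Basis.repr_reindex_apply]
    simp only [map_add, map_smul, Finsupp.add_apply, Finsupp.smul_apply, smul_eq_mul,
      Basis.repr_self]
    rw [Finsupp.single_apply]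
    by_cases hak : (⟨i, k⟩ : Σ i, Fin (e i)) = en.symm a
    · rw [if_pos hak]
      refine Or.inr (Or.inr ?_)
      split_ifs with h
      · rw [Basis.repr_self, Finsupp.single_apply, if_neg]
        · simpa using hroot i k.pos
        · rw [← hak]
          intro hc
          have := congrArg Sigma.fst hc
          simp only [Sigma.mk.injEq, heq_eq_eq, true_and, Fin.ext_iff] at hc
          omega
      · simpa using hroot i k.pos
    · rw [if_neg hak]
      split_ifs with h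
      · rw [Basis.repr_self, Finsupp.single_apply]
        split_ifs <;> simp
      · simp

/-- A quasi-unipotent invertible matrix is conjugate to a unit over the integers of the field. -/
theorem exists_int_form {d M : ℕ} (hM : 0 < M) (A : Matrix (Fin d) (Fin d) ℂ)
    (hA : ∀ z : ℂ, A.charpoly.IsRoot z → z ^ M = 1) :
    ∃ (P : (Matrix (Fin d) (Fin d) ℂ)ˣ) (J : (Matrix (Fin d) (Fin d) (OInt M))ˣ),
      A = ((P * mapU (OInt M).subtype J * P⁻¹ : (Matrix (Fin d) (Fin d) ℂ)ˣ) :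
        Matrix (Fin d) (Fin d) ℂ) := by
  classical
  obtain ⟨P, J0, hAJ, hJ⟩ := exists_normal A
  have hmem : ∀ z : ℂ, z ^ M = 1 → z ∈ OInt M ∧ z⁻¹ ∈ OInt M := by
    intro z hz
    have hz0 : z ≠ 0 := fun h => by simp [h, hM.ne'] at hz
    have h := root_mem (t := Units.mk0 z hz0) hM (Units.ext (by simpa using hz))
    have h2 := h.2
    rw [Units.val_inv_eq_inv_val, Units.val_mk0] at h2
    exact ⟨h.1, h2⟩
  have hentry : ∀ p q, J0 p q ∈ OInt M := fun p q => by
    rcases hJ p q with h | h | h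
    · rw [h]; exact zero_mem _
    · rw [h]; exact one_mem _
    · exact (hmem _ (hA _ h)).1
  let J1 : Matrix (Fin d) (Fin d) (OInt M) := Matrix.of fun p q => ⟨J0 p q, hentry p q⟩
  have hJ1 : (OInt M).subtype.mapMatrix J1 = J0 := rfl
  have hdet : (J1.det : ℂ) = A.det := by
    have h := (OInt M).subtype.map_det J1
    rw [hJ1] at h
    rw [hAJ, Matrix.det_units_conj, ← h]
    rfl
  have hprod : A.det ∈ OInt M ∧ (A.det)⁻¹ ∈ OInt M ∧ A.det ≠ 0 := by
    rw [Matrix.det_eq_prod_roots_charpoly]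
    have hr : ∀ z ∈ A.charpoly.roots, z ^ M = 1 := fun z hz =>
      hA z (Polynomial.isRoot_of_mem_roots hz)
    refine ⟨Subring.multiset_prod_mem _ _ fun z hz => (hmem z (hr z hz)).1, ?_,
      Multiset.prod_ne_zero fun h => by simpa [hM.ne'] using hr 0 h⟩
    rw [← Multiset.prod_map_inv']
    refine Subring.multiset_prod_mem _ _ fun y hy => ?_
    obtain ⟨z, hz, rfl⟩ := Multiset.mem_map.1 hy
    exact (hmem z (hr z hz)).2
  have hu : IsUnit J1.det := IsUnit.of_mul_eq_one ⟨(A.det)⁻¹, hprod.2.1⟩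
    (Subtype.ext (by rw [Subring.coe_mul, hdet]; exact mul_inv_cancel₀ hprod.2.2))
  refine ⟨P, ((Matrix.isUnit_iff_isUnit_det J1).2 hu).unit, ?_⟩
  rw [Units.val_mul, Units.val_mul]
  exact hAJ

end Vale.Agent.P002
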