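import Vale.Agent.P002.Density
import Vale.Agent.P002.Prod.Cond

/-!
P002: integral representations are dense among the semisimple representations of a finite product
of free products of cyclic groups (free and abelian groups included), in every rank, with
quasi-unipotent conjugacy classes prescribed at any generators.
-/

namespace Vale.Agent.P002

open Matrix

variable {n : ℕ} {k : Fin n → ℕ} (m : ∀ i, Fin (k i) → ℕ) (cnd : (Σ i : Fin n, Fin (k i)) → Prop)

/-- A generator of a factor in a block. -/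
abbrev Slot (k : Fin n → ℕ) (C : ℕ) := Σ _ : Fin C, Σ i : Fin n, Fin (k i)

/-- A diagonal entry at a slot. -/
abbrev Coord (k : Fin n → ℕ) {C : ℕ} (a : Fin C → Fin n → ℕ) :=
  Σ x : Slot k C, Fin (a x.1 x.2.1)

/-- A generator of infinite order with no condition. -/
def Free (x : Σ i : Fin n, Fin (k i)) : Prop := m x.1 x.2 = 0 ∧ ¬ cnd x

open Classical in
/-- The determinant condition at a free generator. -/
noncomputable def vec {C : ℕ} (a : Fin C → Fin n → ℕ) (x : Σ i : Fin n, Fin (k i)) (q : Coord k a) : ℤ :=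
  if q.1.2 = x ∧ Free m cnd x then
    (Fintype.card (∀ j : {j // j ≠ q.1.2.1}, Fin (a q.1.1 j)) : ℤ) else 0

/-- The subgroup of the determinant conditions. -/
noncomputable def constr {C : ℕ} (a : Fin C → Fin n → ℕ) : AddSubgroup (Coord k a → ℤ) :=
  AddSubgroup.closure (Set.range (vec m cnd a))

/-- The order of the torsion of the determinant conditions of a shape. -/
noncomputable def torusOrder {C : ℕ} (a : Fin C → Fin n → ℕ) : ℕ :=
  (exists_torus (Coord k a → ℤ) (constr m cnd a)).choose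

theorem torusOrder_pos {C : ℕ} (a : Fin C → Fin n → ℕ) : 0 < torusOrder m cnd a :=
  (exists_torus (Coord k a → ℤ) (constr m cnd a)).choose_spec.choose_spec.choose_spec.choose_spec.1

/-- The homomorphism with given values at the unit vectors. -/
noncomputable def evalHom {Q : Type} [Fintype Q] (D : Q → ℂˣ) : (Q → ℤ) →+ Additive ℂˣ where
  toFun z := ∑ q, z q • Additive.ofMul (D q)
  map_zero' := by simp
  map_add' z w := by
    rw [← Finset.sum_add_distrib]
    exact Finset.sum_congr rfl fun q _ => add_zsmul _ _ _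

theorem evalHom_single {Q : Type} [Fintype Q] [DecidableEq Q] (D : Q → ℂˣ) (q : Q) :
    evalHom D (Pi.single q 1) = Additive.ofMul (D q) := by
  simp [evalHom, Pi.single_apply]

theorem addHom_eq_evalHom {Q : Type} [Fintype Q] [DecidableEq Q]
    (Ψ : (Q → ℤ) →+ Additive ℂˣ) (D : Q → ℂˣ) (h : ∀ q, Ψ (Pi.single q 1) = Additive.ofMul (D q)) :
    Ψ = evalHom D := by
  refine AddMonoidHom.functions_ext _ _ _ fun q z => ?_
  rw [show (Pi.single q z : Q → ℤ) = z • Pi.single q 1 by simp [← Pi.single_smul],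
    map_zsmul, map_zsmul, h, evalHom_single]

theorem evalHom_vec {C : ℕ} (a : Fin C → Fin n → ℕ) (D : Coord k a → ℂˣ)
    (x : Σ i : Fin n, Fin (k i)) (hx : Free m cnd x) :
    evalHom D (vec m cnd a x) = Additive.ofMul
      (∏ c : Fin C, (∏ p, D ⟨⟨c, x⟩, p⟩) ^ Fintype.card (∀ j : {j // j ≠ x.1}, Fin (a c j))) := by
  classical
  change ∑ q, vec m cnd a x q • Additive.ofMul (D q) = _
  rw [ofMul_prod, Fintype.sum_sigma, Fintype.sum_sigma]
  refine Finset.sum_congr rfl fun c _ => ?_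
  rw [Finset.sum_eq_single x]
  · rw [ofMul_pow, ofMul_prod, ← Finset.sum_nsmul]
    refine Finset.sum_congr rfl fun p _ => ?_
    simp only [vec, hx, and_self, if_true]
    rw [natCast_zsmul]
  · intro y _ hy
    exact Finset.sum_eq_zero fun p _ => by simp [vec, hy]
  · exact fun h => absurd (Finset.mem_univ x) h

section SlotVal

variable {R S : Type*} [CommRing R] [CommRing S] {d : ℕ}

/-- The value at a generator: free, or conjugate to a given matrix. -/
def slotVal (f : Prop) [Decidable f] (L L' : List (TransvectionStruct (Fin d) R)) (D : Fin d → Rˣ)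
    (J : (Matrix (Fin d) (Fin d) R)ˣ) : (Matrix (Fin d) (Fin d) R)ˣ :=
  if f then transU L * diagU D * transU L'
  else transU L * diagU D * transU L' * J * (transU L * diagU D * transU L')⁻¹

theorem slotVal_pow (f : Prop) [Decidable f] (e : ℕ) (L L' : List (TransvectionStruct (Fin d) R))
    (D : Fin d → Rˣ) (J : (Matrix (Fin d) (Fin d) R)ˣ) (he : f → e = 0) (hJ : J ^ e = 1) :
    slotVal f L L' D J ^ e = 1 := by
  by_cases hf : f
  · rw [he hf, pow_zero]
  rw [slotVal, if_neg hf, conj_pow, hJ, mul_one, mul_inv_cancel]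

theorem mapU_slotVal (φ : R →+* S) (f : Prop) [Decidable f]
    (L L' : List (TransvectionStruct (Fin d) R))
    (D : Fin d → Rˣ) (J : (Matrix (Fin d) (Fin d) R)ˣ) : mapU φ (slotVal f L L' D J) =
      slotVal f (L.map fun x => ⟨x.i, x.j, x.hij, φ x.c⟩) (L'.map fun x => ⟨x.i, x.j, x.hij, φ x.c⟩)
        (fun p => Units.map φ.toMonoidHom (D p)) (mapU φ J) := by
  unfold slotVal
  split_ifs <;> simp only [map_mul, map_inv, mapU_transU, mapU_diagU]

theorem det_slotVal (f : Prop) [Decidable f] (L L' : List (TransvectionStruct (Fin d) R))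
    (D : Fin d → Rˣ) (J : (Matrix (Fin d) (Fin d) R)ˣ) :
    ((slotVal f L L' D J : (Matrix (Fin d) (Fin d) R)ˣ) : Matrix (Fin d) (Fin d) R).det =
      if f then ∏ p, (D p : R) else (J : Matrix (Fin d) (Fin d) R).det := by
  unfold slotVal
  split_ifs
  · rw [Units.val_mul, Units.val_mul, det_mul, det_mul, det_transU, det_transU, coe_diagU,
      det_diagonal, one_mul, mul_one]
  · rw [Units.val_mul, Units.val_mul, det_units_conj]

end SlotVal

/-- A complex number is a sum of two nonzero ones. -/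
theorem exists_split (c : ℂ) : ∃ u v : ℂˣ, (u : ℂ) + v = c := by
  by_cases hc : c = 0
  · exact ⟨1, -1, by simp [hc]⟩
  · exact ⟨Units.mk0 (c / 2) (by simp [hc]), Units.mk0 (c / 2) (by simp [hc]),
      by simp [add_halves]⟩

/-- The representation in `SL_r` of a family of blocks of total determinant one. -/
noncomputable def slRep {C r : ℕ} (a : Fin C → Fin n → ℕ)
    (σ : ∀ c i, Fac (m i) →* Matrix (Fin (a c i)) (Fin (a c i)) ℂ) (e : Idx a ≃ Fin r)
    (hdet : ∀ g, (bigRep a σ g).det = 1) : (∀ i, Fac (m i)) →* SLC r where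
  toFun g := ⟨(bigRep a σ g).submatrix e.symm e.symm, by rw [det_submatrix_equiv_self, hdet]⟩
  map_one' := by
    apply Subtype.ext
    simp
  map_mul' g h := by
    apply Subtype.ext
    change _ = (bigRep a σ g).submatrix e.symm e.symm * (bigRep a σ h).submatrix e.symm e.symm
    simp only [submatrix_mul_equiv, map_mul]

open Classical in
/-- The data at one slot: free, or conjugate to an integral invertible matrix of the same order. -/
theorem exists_slot {M d : ℕ} (hM : 0 < M) (f : Prop) (X : (Matrix (Fin d) (Fin d) ℂ)ˣ) (e : ℕ)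
    (hX : X ^ e = 1) (he : e ≠ 0 → e ∣ M)
    (hroot : ¬ f → e = 0 → ∀ z : ℂ, (X : Matrix (Fin d) (Fin d) ℂ).charpoly.IsRoot z → z ^ M = 1) :
    ∃ (L L' : List (TransvectionStruct (Fin d) ℂ)) (D : Fin d → ℂˣ)
      (J : (Matrix (Fin d) (Fin d) (OInt M))ˣ),
      J ^ e = 1 ∧ X = slotVal f L L' D (mapU (OInt M).subtype J) := by
  by_cases hf : f
  · obtain ⟨L, L', D, h⟩ := exists_ldu _ X.isUnit
    refine ⟨L, L', D, 1, one_pow _, Units.ext ?_⟩
    rw [slotVal, if_pos hf]
    exact h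
  · have hXpow : (X : Matrix (Fin d) (Fin d) ℂ) ^ e = 1 := by
      rw [← Units.val_pow_eq_pow_val, hX, Units.val_one]
    obtain ⟨P, J, h⟩ := exists_int_form hM (X : Matrix (Fin d) (Fin d) ℂ) fun z hz => by
      rcases Nat.eq_zero_or_pos e with h0 | h0
      · exact hroot hf h0 z hz
      · obtain ⟨P, ζ, hζ, h⟩ := exists_root_diag _ h0 hXpow
        rw [h, Units.val_mul, Units.val_mul, Matrix.coe_units_inv, charpoly_units_conj, coe_diagU, charpoly_diagonal,
          Polynomial.IsRoot, Polynomial.eval_prod] at hz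
        obtain ⟨p, -, hp⟩ := Finset.prod_eq_zero_iff.1 hz
        rw [Polynomial.eval_sub, Polynomial.eval_X, Polynomial.eval_C, sub_eq_zero] at hp
        obtain ⟨q, hq⟩ := he h0.ne'
        rw [hp, hq, pow_mul, ← Units.val_pow_eq_pow_val, hζ p, Units.val_one, one_pow]
    obtain ⟨L, L', D, hP⟩ := exists_ldu _ P.isUnit
    have hX' : X = P * mapU (OInt M).subtype J * P⁻¹ := Units.ext h
    refine ⟨L, L', D, J, ?_, ?_⟩
    · rw [hX', conj_pow, mul_inv_eq_one, mul_eq_left, ← map_pow] at hX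
      refine Units.ext (Matrix.map_injective (f := (OInt M).subtype) Subtype.val_injective ?_)
      have h2 := congrArg (fun U : (Matrix (Fin d) (Fin d) ℂ)ˣ =>
        (U : Matrix (Fin d) (Fin d) ℂ)) hX
      refine h2.trans ?_
      exact (Matrix.map_one (OInt M).subtype (map_zero _) (map_one _)).symm
    · rw [hX', slotVal, if_neg hf, ← (Units.ext hP : P = _)]

/-- A family through given blocks, of determinant one, defined over the nice functions. -/
theorem exists_family {M : ℕ} (hM : 0 < M) {C : ℕ}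
    (a : Fin C → Fin n → ℕ) (σ : ∀ c i, Fac (m i) →* Matrix (Fin (a c i)) (Fin (a c i)) ℂ)
    (hdet : ∀ g, (bigRep a σ g).det = 1)
    (hm : ∀ i j, m i j ≠ 0 → m i j ∣ M) (hmt : torusOrder m cnd a ∣ M)
    (hcond : ∀ x : Σ i : Fin n, Fin (k i), cnd x → ∀ c z,
      (σ c x.1 (gen (m x.1) x.2)).charpoly.IsRoot z → z ^ M = 1) :
    ∃ (κ : Type) (_ : Fintype κ) (_ : DecidableEq κ)
      (σR : ∀ c i, Fac (m i) →* Matrix (Fin (a c i)) (Fin (a c i)) (nice M κ)) (t0 : κ → ℂˣ),
      (∀ c i, (ev t0).mapMatrix.toMonoidHom.comp (σR c i) = σ c i) ∧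
      (∀ t g, (bigRep a (fun c i => (ev t).mapMatrix.toMonoidHom.comp (σR c i)) g).det = 1) ∧
      ∀ (x : Σ i : Fin n, Fin (k i)), cnd x → ∀ t c,
        ∃ U : (Matrix (Fin (a c x.1)) (Fin (a c x.1)) ℂ)ˣ,
          (ev t).mapMatrix.toMonoidHom.comp (σR c x.1) (gen (m x.1) x.2) =
            (U : Matrix (Fin (a c x.1)) (Fin (a c x.1)) ℂ) * σ c x.1 (gen (m x.1) x.2) *
              ((U⁻¹ : (Matrix (Fin (a c x.1)) (Fin (a c x.1)) ℂ)ˣ) :
                Matrix (Fin (a c x.1)) (Fin (a c x.1)) ℂ) := by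
  classical
  let X : ∀ x : Slot k C, (Matrix (Fin (a x.1 x.2.1)) (Fin (a x.1 x.2.1)) ℂ)ˣ := fun x =>
    (σ x.1 x.2.1).toHomUnits (gen (m x.2.1) x.2.2)
  -- the values at the generators
  have hdata : ∀ x : Slot k C, ∃ (L L' : List (TransvectionStruct (Fin (a x.1 x.2.1)) ℂ))
      (D : Fin (a x.1 x.2.1) → ℂˣ)
      (J : (Matrix (Fin (a x.1 x.2.1)) (Fin (a x.1 x.2.1)) (OInt M))ˣ),
      J ^ m x.2.1 x.2.2 = 1 ∧
      X x = slotVal (Free m cnd x.2) L L' D (mapU (OInt M).subtype J) := by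
    intro x
    refine exists_slot hM (Free m cnd x.2) (X x) (m x.2.1 x.2.2) ?_ (hm _ _) fun hf h0 z hz => ?_
    · rw [← map_pow, gen_pow, map_one]
    · exact hcond x.2 (by_contra fun hc => hf ⟨h0, hc⟩) x.1 z hz
  choose L L' D J hJ hX using hdata
  choose u v huv using exists_split
  -- the torus of the diagonals
  obtain ⟨d, co, base, hmpos, hco, hbase, w, hw⟩ :=
    (exists_torus (Coord k a → ℤ) (constr m cnd a)).choose_spec
  let φ : (Coord k a → ℤ) →+ Additive ℂˣ := evalHom fun q => D q.1 q.2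
  let κ : Type := (Σ x : Slot k C, Fin (L x).length × Bool) ⊕
    (Σ x : Slot k C, Fin (L' x).length × Bool) ⊕ Fin d
  let t0 : κ → ℂˣ := Sum.elim (fun z => cond z.2.2 (u ((L z.1)[z.2.1]).c) (v ((L z.1)[z.2.1]).c))
    (Sum.elim (fun z => cond z.2.2 (u ((L' z.1)[z.2.1]).c) (v ((L' z.1)[z.2.1]).c))
      (fun l => Additive.toMul (φ (w l))))
  let LR : ∀ x : Slot k C, List (TransvectionStruct (Fin (a x.1 x.2.1)) (nice M κ)) := fun x =>
    List.ofFn fun l : Fin (L x).length => ⟨((L x)[l]).i, ((L x)[l]).j, ((L x)[l]).hij,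
      (var (M := M) (Sum.inl ⟨x, l, true⟩ : κ) : nice M κ) +
        (var (M := M) (Sum.inl ⟨x, l, false⟩ : κ) : nice M κ)⟩
  let LR' : ∀ x : Slot k C, List (TransvectionStruct (Fin (a x.1 x.2.1)) (nice M κ)) := fun x =>
    List.ofFn fun l : Fin (L' x).length => ⟨((L' x)[l]).i, ((L' x)[l]).j, ((L' x)[l]).hij,
      (var (M := M) (Sum.inr (Sum.inl ⟨x, l, true⟩) : κ) : nice M κ) +
        (var (M := M) (Sum.inr (Sum.inl ⟨x, l, false⟩) : κ) : nice M κ)⟩
  have hφK : ∀ z ∈ constr m cnd a, φ z = 0 := by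
    intro z hz
    induction hz using AddSubgroup.closure_induction with
    | mem z hz =>
      obtain ⟨⟨i, j⟩, rfl⟩ := hz
      by_cases h0 : Free m cnd ⟨i, j⟩
      · simp only [φ]
        rw [evalHom_vec m cnd a _ ⟨i, j⟩ h0, ofMul_eq_zero]
        refine Units.ext ?_
        have h := hdet (Pi.mulSingle i (gen (m i) j))
        rw [det_bigRep_single] at h
        rw [Units.coe_prod, Units.val_one, ← h]
        refine Finset.prod_congr rfl fun c _ => ?_
        have hc := congrArg (fun U : (Matrix (Fin (a c i)) (Fin (a c i)) ℂ)ˣ =>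
          (U : Matrix (Fin (a c i)) (Fin (a c i)) ℂ).det) (hX ⟨c, i, j⟩)
        simp only [X, MonoidHom.coe_toHomUnits, det_slotVal, h0, if_true] at hc
        rw [hc, Units.val_pow_eq_pow_val, Units.coe_prod]
      · have hz0 : vec m cnd a ⟨i, j⟩ = 0 := funext fun q => by
          simp only [vec, Pi.zero_apply]
          exact if_neg fun h => h0 h.2
        rw [hz0, map_zero]
    | zero => simp
    | add x y _ _ hx hy => rw [map_add, hx, hy, add_zero]
    | neg x _ hx => rw [map_neg, hx, neg_zero]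
  have hroot : ∀ z, Additive.toMul (φ (base z)) ∈ intUnits M := by
    intro z
    refine root_mem hM ?_
    obtain ⟨q, hq⟩ := hmt
    have h1 := hφK _ (hbase z)
    rw [map_nsmul] at h1
    rw [← toMul_nsmul, hq, mul_nsmul, show (torusOrder m cnd a) • φ (base z) = 0 from h1, nsmul_zero]
    rfl
  let DR : ∀ x : Slot k C, Fin (a x.1 x.2.1) → (nice M κ)ˣ := fun x p =>
    cst ⟨_, hroot (Pi.single ⟨x, p⟩ 1)⟩ *
      ∏ l, var (M := M) (Sum.inr (Sum.inr l) : κ) ^ co (Pi.single ⟨x, p⟩ 1) l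
  let JR : ∀ x : Slot k C, (Matrix (Fin (a x.1 x.2.1)) (Fin (a x.1 x.2.1)) (nice M κ))ˣ := fun x =>
    mapU cstR (J x)
  have hJR : ∀ x, JR x ^ m x.2.1 x.2.2 = 1 := fun x => by
    simp only [JR]
    rw [← map_pow, hJ, map_one]
  -- the family
  let σu : ∀ c i, Fac (m i) →* (Matrix (Fin (a c i)) (Fin (a c i)) (nice M κ))ˣ := fun c i =>
    facLift (m i) (fun j => slotVal (Free m cnd ⟨i, j⟩) (LR ⟨c, i, j⟩) (LR' ⟨c, i, j⟩)
      (DR ⟨c, i, j⟩) (JR ⟨c, i, j⟩)) fun j => slotVal_pow _ _ _ _ _ _ (fun h => h.1) (hJR ⟨c, i, j⟩)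
  let σR : ∀ c i, Fac (m i) →* Matrix (Fin (a c i)) (Fin (a c i)) (nice M κ) := fun c i =>
    (Units.coeHom _).comp (σu c i)
  let σt : (κ → ℂˣ) → ∀ c i, Fac (m i) →* Matrix (Fin (a c i)) (Fin (a c i)) ℂ := fun t c i =>
    (ev t).mapMatrix.toMonoidHom.comp (σR c i)
  let Ψ : (κ → ℂˣ) → (Coord k a → ℤ) →+ Additive ℂˣ := fun t => φ.comp base +
    { toFun := fun z => ∑ l, co z l • Additive.ofMul (t (Sum.inr (Sum.inr l)))
      map_zero' := by simp
      map_add' := fun y z => by
          rw [← Finset.sum_add_distrib]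
          exact Finset.sum_congr rfl fun l _ => by rw [map_add, Pi.add_apply, add_zsmul] }
  let Dt : (κ → ℂˣ) → Coord k a → ℂˣ := fun t q => Additive.toMul (Ψ t (Pi.single q 1))
  have hΨ : ∀ t, Ψ t = evalHom (Dt t) := fun t => addHom_eq_evalHom _ _ fun q => rfl
  have hDR : ∀ t x p, Units.map (ev t).toMonoidHom (DR x p) = Dt t ⟨x, p⟩ := by
    intro t x p
    simp only [DR, Dt, Ψ, map_mul, map_prod, map_zpow, ev_cst, ev_var, AddMonoidHom.add_apply,
      AddMonoidHom.comp_apply, AddMonoidHom.coe_mk, ZeroHom.coe_mk, toMul_add, toMul_sum,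
      toMul_zsmul, toMul_ofMul]
  have hgen : ∀ t x, σt t x.1 x.2.1 (gen (m x.2.1) x.2.2) =
      ((slotVal (Free m cnd x.2) ((LR x).map fun y => ⟨y.i, y.j, y.hij, ev t y.c⟩)
        ((LR' x).map fun y => ⟨y.i, y.j, y.hij, ev t y.c⟩) (fun p => Dt t ⟨x, p⟩)
          (mapU (OInt M).subtype (J x)) :
          (Matrix (Fin (a x.1 x.2.1)) (Fin (a x.1 x.2.1)) ℂ)ˣ) :
            Matrix (Fin (a x.1 x.2.1)) (Fin (a x.1 x.2.1)) ℂ) := by
    intro t x
    change (↑(mapU (ev t) (σu x.1 x.2.1 (gen (m x.2.1) x.2.2))) :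
      Matrix (Fin (a x.1 x.2.1)) (Fin (a x.1 x.2.1)) ℂ) = _
    simp only [σu, facLift_gen, mapU_slotVal, JR, mapU_cstR]
    rw [← funext fun p => hDR t x p]
  -- the target is a member of the family
  have hDt0 : ∀ q, Dt t0 q = D q.1 q.2 := by
    intro q
    have h : φ (Pi.single q 1) = Ψ t0 (Pi.single q 1) := by
      conv_lhs => rw [hw (Pi.single q 1)]
      simp only [map_add, map_sum, map_zsmul, Ψ, AddMonoidHom.add_apply, AddMonoidHom.comp_apply,
        AddMonoidHom.coe_mk, ZeroHom.coe_mk, t0, Sum.elim_inr, ofMul_toMul]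
    simp only [Dt, ← h, φ, evalHom_single, toMul_ofMul]
  have hev : ∀ (p : κ) , ev (M := M) t0 (var (M := M) p : nice M κ) = (t0 p : ℂ) := fun p => rfl
  have hLR : ∀ x, ((LR x).map fun y => (⟨y.i, y.j, y.hij, ev t0 y.c⟩ :
      TransvectionStruct (Fin (a x.1 x.2.1)) ℂ)) = L x := by
    intro x
    simp only [LR, List.map_ofFn]
    refine Eq.trans (congrArg List.ofFn (funext fun l => ?_)) (List.ofFn_getElem (xs := L x))
    simp only [Function.comp_apply, map_add, hev]
    simp [t0, huv]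
  have hLR' : ∀ x, ((LR' x).map fun y => (⟨y.i, y.j, y.hij, ev t0 y.c⟩ :
      TransvectionStruct (Fin (a x.1 x.2.1)) ℂ)) = L' x := by
    intro x
    simp only [LR', List.map_ofFn]
    refine Eq.trans (congrArg List.ofFn (funext fun l => ?_)) (List.ofFn_getElem (xs := L' x))
    simp only [Function.comp_apply, map_add, hev]
    simp [t0, huv]
  have hσ0 : ∀ c i, σt t0 c i = σ c i := fun c i => fac_ext fun j => by
    rw [hgen t0 ⟨c, i, j⟩, hLR, hLR', funext fun p => hDt0 ⟨⟨c, i, j⟩, p⟩, ← hX ⟨c, i, j⟩]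
    rfl
  -- determinant one
  have hdett : ∀ t g, (bigRep a (σt t) g).det = 1 := by
    intro t
    have h1 : (Matrix.detMonoidHom).comp (bigRep a (σt t)) = 1 := by
      refine pi_fac_ext fun i j => ?_
      rw [MonoidHom.comp_apply, MonoidHom.one_apply, Matrix.coe_detMonoidHom, det_bigRep_single]
      by_cases h0 : Free m cnd ⟨i, j⟩
      · have h2 : Ψ t (vec m cnd a ⟨i, j⟩) = 0 := by
          have hmem : vec m cnd a ⟨i, j⟩ ∈ constr m cnd a := AddSubgroup.subset_closure ⟨_, rfl⟩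
          have hbase' : base (vec m cnd a ⟨i, j⟩) = vec m cnd a ⟨i, j⟩ := by
            conv_rhs => rw [hw (vec m cnd a ⟨i, j⟩)]
            simp [hco _ hmem]
          simp [Ψ, hbase', hφK _ hmem, hco _ hmem]
        rw [hΨ, evalHom_vec m cnd a _ ⟨i, j⟩ h0, ofMul_eq_zero] at h2
        rw [← Units.val_one, ← h2, Units.coe_prod]
        refine Finset.prod_congr rfl fun c _ => ?_
        rw [Units.val_pow_eq_pow_val, Units.coe_prod, hgen t ⟨c, i, j⟩, det_slotVal, if_pos h0]
      · rw [← hdet (Pi.mulSingle i (gen (m i) j)), det_bigRep_single]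
        refine Finset.prod_congr rfl fun c _ => ?_
        rw [← hσ0 c i, hgen t ⟨c, i, j⟩, hgen t0 ⟨c, i, j⟩, det_slotVal, det_slotVal, if_neg h0,
          if_neg h0]
    exact fun g => DFunLike.congr_fun h1 g
  refine ⟨κ, inferInstance, inferInstance, σR, t0, hσ0, hdett, fun x hx t c => ?_⟩
  have hf : ¬ Free m cnd x := fun h => h.2 hx
  have h1 := hgen t ⟨c, x⟩
  have h2 := hgen t0 ⟨c, x⟩
  rw [slotVal, if_neg hf] at h1 h2
  rw [hσ0] at h2
  set A1 := transU ((LR ⟨c, x⟩).map fun y =>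
      (⟨y.i, y.j, y.hij, ev t y.c⟩ : TransvectionStruct (Fin (a c x.1)) ℂ)) *
    diagU (fun p => Dt t ⟨⟨c, x⟩, p⟩) * transU ((LR' ⟨c, x⟩).map fun y =>
      (⟨y.i, y.j, y.hij, ev t y.c⟩ : TransvectionStruct (Fin (a c x.1)) ℂ))
  set A0 := transU ((LR ⟨c, x⟩).map fun y =>
      (⟨y.i, y.j, y.hij, ev t0 y.c⟩ : TransvectionStruct (Fin (a c x.1)) ℂ)) *
    diagU (fun p => Dt t0 ⟨⟨c, x⟩, p⟩) * transU ((LR' ⟨c, x⟩).map fun y =>
      (⟨y.i, y.j, y.hij, ev t0 y.c⟩ : TransvectionStruct (Fin (a c x.1)) ℂ))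
  refine ⟨A1 * A0⁻¹, h1.trans ?_⟩
  rw [h2, ← Units.val_mul, ← Units.val_mul]
  exact congrArg Units.val (by group)

/-- Evaluations of polynomials along a family with nice entries are Laurent. -/
theorem laurent_evalRep {H : Type*} [Group H] {M N r : ℕ} {κ : Type} [DecidableEq κ]
    (s : Fin N → H) (f : MvPolynomial (Fin N × Fin r × Fin r) ℂ)
    (ρ : (κ → ℂˣ) → (H →* SLC r)) (Φ : H → Fin r → Fin r → nice M κ)
    (hΦ : ∀ t g p q, ((ρ t g : SLC r) : Matrix (Fin r) (Fin r) ℂ) p q = ev t (Φ g p q))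
    (t : κ → ℂˣ) (j : κ) : IsLaurent fun x => evalRep s f (ρ (Function.update t j x)) := by
  have h := isLaurent_eval (σ := Fin N × Fin r × Fin r)
    (fun z x => ev (Function.update t j x) (Φ (s z.1) z.2.1 z.2.2))
    (fun z => ev_laurent (Φ (s z.1) z.2.1 z.2.2) t j) f
  unfold evalRep
  simp only [hΦ]
  exact h

/-- Vanishing at the integral semisimple points implies vanishing at a sum of full tensor blocks. -/
theorem zero_at_blocks {M N r : ℕ} (hM : 0 < M) (s : Fin N → ∀ i, Fac (m i)) {C : ℕ}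
    (a : Fin C → Fin n → ℕ) (σ : ∀ c i, Fac (m i) →* Matrix (Fin (a c i)) (Fin (a c i)) ℂ)
    (e : Idx a ≃ Fin r) (hdet : ∀ g, (bigRep a σ g).det = 1)
    (hspan : ∀ c i, Submodule.span ℂ (Set.range (σ c i)) = ⊤)
    (hm : ∀ i j, m i j ≠ 0 → m i j ∣ M) (hmt : torusOrder m cnd a ∣ M)
    (hcond : ∀ x : Σ i : Fin n, Fin (k i), cnd x → ∀ c z,
      (σ c x.1 (gen (m x.1) x.2)).charpoly.IsRoot z → z ^ M = 1)
    (f : MvPolynomial (Fin N × Fin r × Fin r) ℂ)
    (hint : ∀ ρ : (∀ i, Fac (m i)) →* SLC r, Semisimple ρ →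
      (∀ x, cnd x → IsConj (slRep m a σ e hdet (Pi.mulSingle x.1 (gen (m x.1) x.2)))
        (ρ (Pi.mulSingle x.1 (gen (m x.1) x.2)))) → IntegralIn (field M) ρ →
      evalRep s f ρ = 0) :
    evalRep s f (slRep m a σ e hdet) = 0 := by
  classical
  obtain ⟨κ, _, _, σR, t0, hσ0, hdett, hconj⟩ := exists_family m cnd hM a σ hdet hm hmt hcond
  let σt : (κ → ℂˣ) → ∀ c i, Fac (m i) →* Matrix (Fin (a c i)) (Fin (a c i)) ℂ := fun t c i =>
    (ev t).mapMatrix.toMonoidHom.comp (σR c i)
  -- full blocks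
  have hwords : ∀ c i, ∃ g : Fin (a c i) × Fin (a c i) → Fac (m i),
      ((Matrix.stdBasis ℂ (Fin (a c i)) (Fin (a c i))).det fun p => σ c i (g p)) ≠ 0 := by
    intro c i
    obtain ⟨S, hS, hSspan, hSli⟩ := exists_linearIndependent ℂ (Set.range (σ c i))
    let B0 := Module.Basis.mk hSli (show ⊤ ≤ _ by rw [Subtype.range_coe, hSspan, hspan])
    let B := B0.reindex (B0.indexEquiv (Matrix.stdBasis ℂ (Fin (a c i)) (Fin (a c i))))
    have hB : ∀ p, B p ∈ Set.range (σ c i) := fun p => by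
      simp only [B, Module.Basis.reindex_apply, B0, Module.Basis.mk_apply]
      exact hS (Subtype.coe_prop _)
    choose g hg using hB
    refine ⟨g, ?_⟩
    rw [funext hg]
    exact ((Matrix.stdBasis ℂ (Fin (a c i)) (Fin (a c i))).isUnit_det B).ne_zero
  choose g hg using hwords
  let W : ∀ c i, Matrix (Fin (a c i) × Fin (a c i)) (Fin (a c i) × Fin (a c i)) (nice M κ) :=
    fun c i => Matrix.of fun p q => σR c i (g c i q) p.1 p.2
  have hW : ∀ t c i, ev t (W c i).det =
      (Matrix.stdBasis ℂ (Fin (a c i)) (Fin (a c i))).det fun p => σt t c i (g c i p) := by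
    intro t c i
    rw [RingHom.map_det, Module.Basis.det_apply]
    congr 1
  let h : nice M κ := ∏ c, ∏ i, (W c i).det
  have hss : ∀ t, ev t h ≠ 0 → Semisimple (slRep m a (σt t) e (hdett t)) := by
    intro t ht
    refine semisimple_of_blocks _ e (fun c g => tens (a c) fun i => σt t c i (g i))
      (fun g => rfl) fun c => span_tens (a c) (σt t c) fun i => ?_
    simp only [h, map_prod, hW, Finset.prod_ne_zero_iff] at ht
    have h1 := (Module.Basis.is_basis_iff_det _).2 (isUnit_iff_ne_zero.2 (ht c (Finset.mem_univ _) i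
      (Finset.mem_univ _)))
    rw [eq_top_iff, ← h1.2]
    exact Submodule.span_mono (Set.range_comp_subset_range (g c i) (σt t c i))
  have hentry : ∀ t g p q, ((slRep m a (σt t) e (hdett t) g : SLC r) : Matrix (Fin r) (Fin r) ℂ) p q =
      ev t (bigRep a σR g (e.symm p) (e.symm q)) := by
    intro t g p q
    change bigRep a (σt t) g (e.symm p) (e.symm q) = _
    rw [show bigRep a (σt t) g = (bigRep a σR g).map (ev t) from (bigRep_map a (ev t) σR g).symm,
      Matrix.map_apply]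
  have hcls : ∀ t x, cnd x → IsConj (slRep m a σ e hdet (Pi.mulSingle x.1 (gen (m x.1) x.2)))
      (slRep m a (σt t) e (hdett t) (Pi.mulSingle x.1 (gen (m x.1) x.2))) := by
    intro t x hx
    choose U hU using hconj x hx t
    obtain ⟨V, hV⟩ := conj_bigRep_single a σ (σt t) x.1 (gen (m x.1) x.2) U hU
    refine isConj_of_units _ _
      (Units.map (Matrix.reindexAlgEquiv ℂ ℂ e).toAlgHom.toRingHom.toMonoidHom V) ?_
    change (Matrix.reindexAlgEquiv ℂ ℂ e) (bigRep a (σt t) (Pi.mulSingle x.1 (gen (m x.1) x.2))) = _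
    rw [hV, map_mul, map_mul]
    rfl
  let F : (κ → ℂˣ) → ℂ := fun t => evalRep s f (slRep m a (σt t) e (hdett t)) * ev t h
  have hL : ∀ t j, IsLaurent fun x => F (Function.update t j x) := fun t j =>
    (laurent_evalRep s f (fun t => slRep m a (σt t) e (hdett t))
      (fun g p q => bigRep a σR g (e.symm p) (e.symm q)) hentry t j).mul (ev_laurent h t j)
  have hG : ∀ t, Grid t → F t = 0 := fun t ht => by
    by_cases h0 : ev t h = 0
    · simp only [F, h0, mul_zero]
    · have hi : IntegralIn (field M) (slRep m a (σt t) e (hdett t)) := ⟨1, fun g p q => by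
        rw [one_mul, inv_one, mul_one, hentry]
        exact ev_mem _ ht⟩
      simp only [F]
      rw [hint _ (hss t h0) (hcls t) hi, zero_mul]
  have hF : ∀ t, F t = 0 := eq_zero_grid F hL hG
  have ht0 : ev t0 h ≠ 0 := by
    simp only [h, map_prod, hW, Finset.prod_ne_zero_iff]
    intro c _ i _
    rw [show σt t0 c i = σ c i from hσ0 c i]
    exact hg c i
  have hrep : slRep m a (σt t0) e (hdett t0) = slRep m a σ e hdet := by
    ext g : 1
    apply Subtype.ext
    change (bigRep a (σt t0) g).submatrix e.symm e.symm = _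
    rw [show σt t0 = σ from funext fun c => funext fun i => hσ0 c i]
    rfl
  rw [← hrep]
  exact (mul_eq_zero.1 (hF t0)).resolve_right ht0

/-- Integral representations are dense among the semisimple representations with prescribed
quasi-unipotent classes at some generators, over one number field. -/
theorem dense_products (m : ∀ i, Fin (k i) → ℕ) {N : ℕ} (s : Fin N → ∀ i, Fac (m i)) (r : ℕ)
    {b : ℕ} (γ : Fin b → Σ i : Fin n, Fin (k i)) (Cl : Fin b → SLC r)
    (hCl : ∀ l, QuasiUnipotent (Cl l)) :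
    ∃ L : IntermediateField ℚ ℂ, FiniteDimensional ℚ L ∧
      ∀ f : MvPolynomial (Fin N × Fin r × Fin r) ℂ,
        (∀ (P : SLC r) (ρ : (∀ i, Fac (m i)) →* SLC r),
          evalRep s f ((MulAut.conj P).toMonoidHom.comp ρ) = evalRep s f ρ) →
        (∀ ρ, InY (fun l => Pi.mulSingle (γ l).1 (gen (m (γ l).1) (γ l).2)) Cl ρ → IntegralIn L ρ →
          evalRep s f ρ = 0) →
        ∀ ρ, InY (fun l => Pi.mulSingle (γ l).1 (gen (m (γ l).1) (γ l).2)) Cl ρ →
          evalRep s f ρ = 0 := by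
  classical
  obtain ⟨N0, hN0, hroot⟩ := exists_order Cl hCl
  let cnd : (Σ i : Fin n, Fin (k i)) → Prop := fun x => ∃ l, γ l = x
  let M : ℕ := ((∏ z : Σ C : Fin (r + 1), Fin C → Fin n → Fin (r + 1),
      torusOrder m cnd fun c i => (z.2 c i : ℕ)) *
    ∏ x : Σ i, Fin (k i), if m x.1 x.2 = 0 then 1 else m x.1 x.2) * N0
  have hM : 0 < M := by
    refine Nat.mul_pos (Nat.mul_pos (Finset.prod_pos fun z _ => torusOrder_pos m cnd _)
      (Finset.prod_pos fun x _ => ?_)) hN0
    split_ifs with h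
    exacts [Nat.one_pos, Nat.pos_of_ne_zero h]
  refine ⟨field M, field_finite hM, fun f hinv hint ρ hY => ?_⟩
  obtain ⟨hρ, hγ⟩ := hY
  obtain ⟨C, a, σ, e, P, hC, ha, hspan, hP⟩ := exists_blocks ρ hρ
  have hsub : ∀ g, ((P * ρ g * P⁻¹ : SLC r) : Matrix (Fin r) (Fin r) ℂ) =
      (bigRep a σ g).submatrix e.symm e.symm := by
    let c1 : SLC r →* Matrix (Fin r) (Fin r) ℂ :=
      { toFun := fun A => (A : Matrix (Fin r) (Fin r) ℂ)
        map_one' := rfl
        map_mul' := fun _ _ => rfl }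
    let f1 : (∀ i, Fac (m i)) →* Matrix (Fin r) (Fin r) ℂ :=
      c1.comp ((MulAut.conj P).toMonoidHom.comp ρ)
    let f2 : (∀ i, Fac (m i)) →* Matrix (Fin r) (Fin r) ℂ :=
      (Matrix.reindexAlgEquiv ℂ ℂ e).toAlgHom.toRingHom.toMonoidHom.comp (bigRep a σ)
    exact fun g => DFunLike.congr_fun (pi_fac_ext (f := f1) (g := f2) fun i j => hP i _) g
  have hdet : ∀ g, (bigRep a σ g).det = 1 := fun g => by
    rw [← det_submatrix_equiv_self e.symm, ← hsub, Matrix.SpecialLinearGroup.det_coe]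
  have hsl : ∀ g, slRep m a σ e hdet g = P * ρ g * P⁻¹ := fun g => Subtype.ext (hsub g).symm
  have hclass : ∀ l, IsConj (slRep m a σ e hdet (Pi.mulSingle (γ l).1 (gen (m (γ l).1) (γ l).2)))
      (Cl l) := fun l => by
    rw [hsl]
    exact (isConj_iff.mpr ⟨P⁻¹, by group⟩ : IsConj _ (ρ _)).trans (hγ l)
  have hzero := zero_at_blocks m cnd hM s a σ e hdet hspan (fun i j h => by
      refine Dvd.dvd.mul_right (Dvd.dvd.mul_left ?_ _) _
      have h1 := Finset.dvd_prod_of_mem (fun x : Σ i, Fin (k i) =>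
        if m x.1 x.2 = 0 then 1 else m x.1 x.2) (Finset.mem_univ ⟨i, j⟩)
      simpa [h] using h1) (by
      refine Dvd.dvd.mul_right (Dvd.dvd.mul_right ?_ _) _
      exact Finset.dvd_prod_of_mem (fun z : Σ C : Fin (r + 1), Fin C → Fin n → Fin (r + 1) =>
        torusOrder m cnd fun c i => (z.2 c i : ℕ))
        (Finset.mem_univ ⟨⟨C, Nat.lt_succ_of_le hC⟩, fun c i => ⟨a c i, Nat.lt_succ_of_le (ha c i).2⟩⟩))
    (by
      rintro _ ⟨l, rfl⟩ c z hz
      have h1 := root_bigRep_single a (fun c i => (ha c i).1)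
        (fun c' i' => if h : i' = (γ l).1 then h ▸ σ c' _ (gen (m (γ l).1) (γ l).2) else 0) (γ l).1 c z
        (by simpa using hz)
      have h2 : ((Cl l : SLC r) : Matrix (Fin r) (Fin r) ℂ).charpoly.IsRoot z := by
        rw [← charpoly_of_conj (hclass l)]
        change ((bigRep a σ _).submatrix e.symm e.symm).charpoly.IsRoot z
        rw [show ((bigRep a σ (Pi.mulSingle (γ l).1 (gen (m (γ l).1) (γ l).2))).submatrix e.symm e.symm)
          = Matrix.reindex e e (bigRep a σ _) from rfl, Matrix.charpoly_reindex, bigRep_single_eq]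
        simpa using h1
      rw [show M = _ * N0 from rfl, mul_comm, pow_mul, hroot l z h2, one_pow])
    f fun σ' hss hcl hi => hint σ' ⟨hss, fun l => (hcl (γ l) ⟨l, rfl⟩).symm.trans (hclass l)⟩ hi
  rw [← hinv P ρ, ← hzero]
  congr 1
  ext g : 1
  exact Subtype.ext (hsub g)

end Vale.Agent.P002
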