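import Vale.Agent.P002.Diag
import Vale.Agent.P002.Prod.Irred

/-!
P002: block diagonal sums of tensor products of matrices, and representations of products of free
products of cyclic groups.
-/

namespace Vale.Agent.P002

open Matrix Module

universe u

variable {n : ℕ} {R : Type*} [CommRing R]

/-- Tensor product of square matrices, indexed by tuples. -/
def tens (a : Fin n → ℕ) :
    (∀ i, Matrix (Fin (a i)) (Fin (a i)) R) →*
      Matrix (∀ i, Fin (a i)) (∀ i, Fin (a i)) R where
  toFun M := Matrix.of fun p q => ∏ i, M i (p i) (q i)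
  map_one' := by
    ext p q
    simp only [of_apply, Pi.one_apply, one_apply]
    split_ifs with h
    · subst h; simp
    · obtain ⟨i, hi⟩ := Function.ne_iff.1 h
      exact Finset.prod_eq_zero (Finset.mem_univ i) (if_neg hi)
  map_mul' M N := by
    ext p q
    simp only [of_apply, Pi.mul_apply, mul_apply]
    rw [Fintype.prod_sum]
    simp only [Finset.prod_mul_distrib]

theorem tens_apply (a : Fin n → ℕ) (M : ∀ i, Matrix (Fin (a i)) (Fin (a i)) R) (p q) :
    tens a M p q = ∏ i, M i (p i) (q i) := rfl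

/-- A tensor product with one nontrivial factor. -/
theorem tens_single_apply (a : Fin n → ℕ) (i : Fin n) (M : Matrix (Fin (a i)) (Fin (a i)) R)
    (p q : ∀ i, Fin (a i)) :
    tens a (Pi.mulSingle i M) p q = if ∀ j, j ≠ i → p j = q j then M (p i) (q i) else 0 := by
  rw [tens_apply, ← Finset.mul_prod_erase _ _ (Finset.mem_univ i), Pi.mulSingle_eq_same]
  split_ifs with h
  · rw [Finset.prod_eq_one, mul_one]
    intro j hj
    rw [Pi.mulSingle_eq_of_ne (Finset.ne_of_mem_erase hj), h j (Finset.ne_of_mem_erase hj),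
      Matrix.one_apply_eq]
  · push Not at h
    obtain ⟨j, hj, hne⟩ := h
    rw [Finset.prod_eq_zero (Finset.mem_erase.2 ⟨hj, Finset.mem_univ j⟩), mul_zero]
    rw [Pi.mulSingle_eq_of_ne hj, Matrix.one_apply_ne hne]

theorem det_tens_single (a : Fin n → ℕ) (i : Fin n) (M : Matrix (Fin (a i)) (Fin (a i)) R) :
    (tens a (Pi.mulSingle i M)).det =
      M.det ^ Fintype.card (∀ j : {j // j ≠ i}, Fin (a j)) := by
  have h : tens a (Pi.mulSingle i M) =
      (kroneckerMap (· * ·) M (1 : Matrix (∀ j : {j // j ≠ i}, Fin (a j)) _ R)).submatrix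
        (Equiv.piSplitAt i fun j => Fin (a j)) (Equiv.piSplitAt i fun j => Fin (a j)) := by
    ext p q
    rw [tens_single_apply, submatrix_apply, kroneckerMap_apply, one_apply]
    by_cases hpq : ∀ j, j ≠ i → p j = q j
    · rw [if_pos hpq, if_pos (show ((Equiv.piSplitAt i fun j => Fin (a j)) p).2 =
        ((Equiv.piSplitAt i fun j => Fin (a j)) q).2 from funext fun j => hpq j j.2), mul_one]
      rfl
    · rw [if_neg hpq, if_neg (show ¬((Equiv.piSplitAt i fun j => Fin (a j)) p).2 =
        ((Equiv.piSplitAt i fun j => Fin (a j)) q).2 from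
        fun e => hpq fun j hj => congrFun e ⟨j, hj⟩), mul_zero]
  rw [h, det_submatrix_equiv_self, det_kronecker, det_one, one_pow, mul_one]

theorem det_blockDiag {C : ℕ} {κ : Fin C → Type} [∀ c, Fintype (κ c)] [∀ c, DecidableEq (κ c)]
    (d : ∀ c, Matrix (κ c) (κ c) R) : (blockDiagonal' d).det = ∏ c, (d c).det := by
  rw [(blockTriangular_blockDiagonal' d).det_fintype]
  refine Finset.prod_congr rfl fun c _ => ?_
  let e : κ c ≃ {z : Σ c, κ c // z.1 = c} :=
    { toFun := fun p => ⟨⟨c, p⟩, rfl⟩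
      invFun := fun z => z.2 ▸ z.1.2
      left_inv := fun p => rfl
      right_inv := by rintro ⟨⟨c', p⟩, rfl⟩; rfl }
  rw [← det_submatrix_equiv_self e]
  congr 1
  ext p q
  exact blockDiagonal'_apply_eq d c p q

variable {C : ℕ} (a : Fin C → Fin n → ℕ)

/-- The index set of a sum of tensor blocks. -/
abbrev Idx := Σ c, ∀ i, Fin (a c i)

/-- The sum over the blocks of the tensor products of the representations of the factors. -/
def bigRep {H : Fin n → Type u} [∀ i, Monoid (H i)]
    (σ : ∀ c i, H i →* Matrix (Fin (a c i)) (Fin (a c i)) R) :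
    (∀ i, H i) →* Matrix (Idx a) (Idx a) R :=
  (blockDiagonal'RingHom (fun c => ∀ i, Fin (a c i)) R).toMonoidHom.comp
    (MonoidHom.pi fun c => (tens (a c)).comp
      (MonoidHom.pi fun i => (σ c i).comp (Pi.evalMonoidHom H i)))

theorem bigRep_apply {H : Fin n → Type u} [∀ i, Monoid (H i)]
    (σ : ∀ c i, H i →* Matrix (Fin (a c i)) (Fin (a c i)) R) (g : ∀ i, H i) :
    bigRep a σ g = blockDiagonal' fun c => tens (a c) fun i => σ c i (g i) := rfl

theorem bigRep_single {H : Fin n → Type u} [∀ i, Monoid (H i)]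
    (σ : ∀ c i, H i →* Matrix (Fin (a c i)) (Fin (a c i)) R) (i : Fin n) (x : H i) :
    bigRep a σ (Pi.mulSingle i x) =
      blockDiagonal' fun c => tens (a c) (Pi.mulSingle i (σ c i x)) := by
  rw [bigRep_apply]
  congr 1
  funext c
  congr 1
  funext j
  exact Pi.apply_mulSingle (fun j => σ c j) (fun j => map_one _) i x j

theorem det_bigRep_single {H : Fin n → Type u} [∀ i, Monoid (H i)]
    (σ : ∀ c i, H i →* Matrix (Fin (a c i)) (Fin (a c i)) R) (i : Fin n) (x : H i) :
    (bigRep a σ (Pi.mulSingle i x)).det =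
      ∏ c, (σ c i x).det ^ Fintype.card (∀ j : {j // j ≠ i}, Fin (a c j)) := by
  rw [bigRep_single, det_blockDiag]
  exact Finset.prod_congr rfl fun c _ => det_tens_single _ _ _

theorem bigRep_map {S : Type*} [CommRing S] (φ : R →+* S) {H : Fin n → Type u} [∀ i, Monoid (H i)]
    (σ : ∀ c i, H i →* Matrix (Fin (a c i)) (Fin (a c i)) R) (g : ∀ i, H i) :
    (bigRep a σ g).map φ = bigRep a (fun c i => φ.mapMatrix.toMonoidHom.comp (σ c i)) g := by
  rw [bigRep_apply, bigRep_apply, blockDiagonal'_map _ _ (map_zero φ)]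
  congr 1
  funext c
  ext p q
  simp [tens_apply, map_prod]

section Factors

/-- A free product of cyclic groups of the given orders (`0` for infinite cyclic). -/
abbrev Fac {k : ℕ} (m : Fin k → ℕ) := Monoid.CoprodI fun j => Multiplicative (ZMod (m j))

/-- The generator of a cyclic factor. -/
def gen {k : ℕ} (m : Fin k → ℕ) (j : Fin k) : Fac m :=
  Monoid.CoprodI.of (M := fun j => Multiplicative (ZMod (m j))) (i := j) (Multiplicative.ofAdd 1)

theorem fac_ext {k : ℕ} {m : Fin k → ℕ} {M : Type*} [Monoid M] {f g : Fac m →* M}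
    (h : ∀ j, f (gen m j) = g (gen m j)) : f = g := by
  refine Monoid.CoprodI.ext_hom f g fun j => ?_
  refine MonoidHom.ext fun (x : Multiplicative (ZMod (m j))) => ?_
  obtain ⟨z, hz⟩ := ZMod.intCast_surjective x.toAdd
  have hx : x = (Multiplicative.ofAdd (1 : ZMod (m j))) ^ z := by
    rw [← ofAdd_zsmul, zsmul_one, hz, ofAdd_toAdd]
  rw [MonoidHom.comp_apply, MonoidHom.comp_apply, hx, map_zpow]
  exact (Subgroup.zpow_mem (f.eqLocus g) (h j) z :)

theorem pi_fac_ext {k : Fin n → ℕ} {m : ∀ i, Fin (k i) → ℕ} {M : Type*} [Monoid M]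
    {f g : (∀ i, Fac (m i)) →* M}
    (h : ∀ i j, f (Pi.mulSingle i (gen (m i) j)) = g (Pi.mulSingle i (gen (m i) j))) : f = g := by
  classical
  ext x
  have hi : ∀ i, f.comp (MonoidHom.mulSingle (fun i => Fac (m i)) i) =
      g.comp (MonoidHom.mulSingle (fun i => Fac (m i)) i) := fun i => fac_ext fun j => h i j
  exact (Subgroup.pi_mem_of_mulSingle_mem (H := f.eqLocus g) x
    fun i => DFunLike.congr_fun (hi i) (x i) :)

/-- The homomorphism with prescribed values at the generators. -/
noncomputable def facLift {k : ℕ} (m : Fin k → ℕ) {M : Type*} [Group M] (u : Fin k → M)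
    (hu : ∀ j, u j ^ m j = 1) : Fac m →* M :=
  Monoid.CoprodI.lift fun j => AddMonoidHom.toMultiplicativeLeft (ZMod.lift (m j)
    ⟨zmultiplesHom (Additive M) (Additive.ofMul (u j)), by
      simp [← ofMul_pow, hu j]⟩)

theorem facLift_gen {k : ℕ} (m : Fin k → ℕ) {M : Type*} [Group M] (u : Fin k → M)
    (hu : ∀ j, u j ^ m j = 1) (j : Fin k) : facLift m u hu (gen m j) = u j := by
  have h1 : ((1 : ℤ) : ZMod (m j)) = 1 := Int.cast_one
  rw [facLift, gen, Monoid.CoprodI.lift_of]
  change Additive.toMul (ZMod.lift (m j) _ (1 : ZMod (m j))) = u j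
  rw [← h1, ZMod.lift_coe]
  simp

theorem gen_pow {k : ℕ} (m : Fin k → ℕ) (j : Fin k) : gen m j ^ m j = 1 := by
  rw [gen, ← map_pow, ← ofAdd_nsmul, nsmul_one, ZMod.natCast_self, ofAdd_zero, map_one]

end Factors

/-- A sum of blocks whose images span all matrices is semisimple. -/
theorem semisimple_of_blocks {G : Type u} [Group G] {r : ℕ} {κ : Fin C → Type}
    [∀ c, Fintype (κ c)] [∀ c, DecidableEq (κ c)] (ρ : G →* SLC r) (e : (Σ c, κ c) ≃ Fin r)
    (τ : ∀ c, G → Matrix (κ c) (κ c) ℂ)
    (hρ : ∀ g, (ρ g : Matrix (Fin r) (Fin r) ℂ) =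
      (blockDiagonal' fun c => τ c g).submatrix e.symm e.symm)
    (hspan : ∀ c, Submodule.span ℂ (Set.range (τ c)) = ⊤) : Semisimple ρ := by
  classical
  -- inclusion of a block
  let inc : ∀ c, (κ c → ℂ) →ₗ[ℂ] (Fin r → ℂ) := fun c =>
    (LinearMap.funLeft ℂ ℂ e.symm).comp ((LinearEquiv.piCurry ℂ fun c (_ : κ c) => ℂ).symm.toLinearMap.comp
      (LinearMap.single ℂ (fun c => κ c → ℂ) c))
  have hinc : ∀ c (v : κ c → ℂ) (z : Σ c, κ c),
      inc c v (e z) = if h : z.1 = c then v (h ▸ z.2) else 0 := by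
    intro c v z
    obtain ⟨c', p⟩ := z
    simp only [inc, LinearMap.comp_apply, LinearMap.funLeft_apply, Equiv.symm_apply_apply]
    by_cases h : c' = c
    · subst h; simp [Sigma.uncurry]
    · simp [Sigma.uncurry, h]
  have hact : ∀ g c v, Matrix.mulVec (ρ g : Matrix (Fin r) (Fin r) ℂ) (inc c v) =
      inc c (Matrix.mulVec (τ c g) v) := by
    intro g c v
    funext a
    obtain ⟨⟨c', p⟩, rfl⟩ := e.surjective a
    rw [hρ, hinc]
    simp only [Matrix.mulVec, dotProduct, submatrix_apply, Equiv.symm_apply_apply]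
    rw [← e.sum_comp, Fintype.sum_sigma, Finset.sum_eq_single c]
    · simp only [hinc, dif_pos, Equiv.symm_apply_apply]
      by_cases h : c' = c
      · subst h; simp [blockDiagonal'_apply_eq]
      · simp [h, blockDiagonal'_apply_ne _ _ _ h]
    · intro c'' _ hne
      refine Finset.sum_eq_zero fun q _ => ?_
      rw [hinc, dif_neg hne, mul_zero]
    · exact fun h => absurd (Finset.mem_univ c) h
  intro W hW
  let sp : Finset (Fin C) → Submodule ℂ (Fin r → ℂ) := fun S => ⨆ c ∈ S, LinearMap.range (inc c)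
  have hspinv : ∀ S g, ∀ v ∈ sp S, Matrix.mulVec (ρ g : Matrix (Fin r) (Fin r) ℂ) v ∈ sp S := by
    intro S g v hv
    change v ∈ (sp S).comap (Matrix.mulVecLin (ρ g : Matrix (Fin r) (Fin r) ℂ))
    refine (iSup₂_le (f := fun c (_ : c ∈ S) => LinearMap.range (inc c)) fun c hc => ?_) hv
    rintro _ ⟨w, rfl⟩
    rw [Submodule.mem_comap, Matrix.mulVecLin_apply, hact]
    exact Submodule.mem_iSup_of_mem c (Submodule.mem_iSup_of_mem hc ⟨_, rfl⟩)
  obtain ⟨S, hS, hmax⟩ := Finset.exists_max_image
    (Finset.univ.filter fun S : Finset (Fin C) => Disjoint W (sp S)) Finset.card ⟨∅, by simp [sp]⟩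
  rw [Finset.mem_filter] at hS
  have hall : ∀ c, LinearMap.range (inc c) ≤ W ⊔ sp S := by
    intro c
    by_contra hc
    set X := (W ⊔ sp S).comap (inc c) with hX
    have hXinv : ∀ A : Matrix (κ c) (κ c) ℂ, ∀ v ∈ X, A.mulVec v ∈ X := by
      intro A v hv
      have hA : A ∈ Submodule.span ℂ (Set.range (τ c)) := hspan c ▸ Submodule.mem_top
      induction hA using Submodule.span_induction with
      | mem A hA =>
        obtain ⟨g, rfl⟩ := hA
        rw [hX, Submodule.mem_comap, ← hact]
        rw [hX, Submodule.mem_comap] at hv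
        obtain ⟨w, hw, q, hq, hwq⟩ := Submodule.mem_sup.1 hv
        rw [← hwq, Matrix.mulVec_add]
        exact Submodule.add_mem_sup (hW g w hw) (hspinv S g q hq)
      | zero => simp
      | add A B _ _ hA hB => rw [Matrix.add_mulVec]; exact add_mem hA hB
      | smul t A _ hA => rw [Matrix.smul_mulVec]; exact Submodule.smul_mem _ t hA
    have hXbot : X = ⊥ := by
      by_contra hne
      obtain ⟨v, hv, hv0⟩ := Submodule.exists_mem_ne_zero_of_ne_bot hne
      obtain ⟨p, hp⟩ := Function.ne_iff.1 hv0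
      refine hc ?_
      rintro _ ⟨w, rfl⟩
      have h1 := hXinv (Matrix.of fun i j => if j = p then w i / v p else 0) v hv
      have h2 : (Matrix.of fun i j => if j = p then w i / v p else 0).mulVec v = w := by
        funext i
        simp only [Matrix.mulVec, dotProduct, of_apply, ite_mul, zero_mul, Finset.sum_ite_eq',
          Finset.mem_univ, if_true]
        exact div_mul_cancel₀ _ hp
      rw [h2] at h1
      exact h1
    have hcS : c ∉ S := fun h => hc fun x hx =>
      Submodule.mem_sup_right (Submodule.mem_iSup_of_mem c (Submodule.mem_iSup_of_mem h hx))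
    have hd : Disjoint W (sp (insert c S)) := by
      have hsp : sp (insert c S) = LinearMap.range (inc c) ⊔ sp S := Finset.iSup_insert _ _ _
      rw [Submodule.disjoint_def, hsp]
      intro x hxW hx
      obtain ⟨_, ⟨w, rfl⟩, q, hq, rfl⟩ := Submodule.mem_sup.1 hx
      have hw : w ∈ X := by
        rw [hX, Submodule.mem_comap, ← add_sub_cancel_right (inc c w) q]
        exact Submodule.sub_mem _ (Submodule.mem_sup_left hxW) (Submodule.mem_sup_right hq)
      rw [hXbot, Submodule.mem_bot] at hw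
      rw [hw, map_zero, zero_add] at hxW ⊢
      exact Submodule.disjoint_def.1 hS.2 q hxW hq
    have := hmax (insert c S) (Finset.mem_filter.2 ⟨Finset.mem_univ _, hd⟩)
    rw [Finset.card_insert_of_notMem hcS] at this
    omega
  refine ⟨sp S, hspinv S, hS.2, codisjoint_iff.2 (eq_top_iff.2 fun v _ => ?_)⟩
  have hv : v = ∑ c, inc c fun p => v (e ⟨c, p⟩) := by
    funext a
    obtain ⟨⟨c', p⟩, rfl⟩ := e.surjective a
    rw [Finset.sum_apply, Finset.sum_eq_single c' (fun c _ hne => by rw [hinc, dif_neg (Ne.symm hne)])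
      (fun h => absurd (Finset.mem_univ c') h), hinc, dif_pos rfl]
  rw [hv]
  exact Submodule.sum_mem _ fun c _ => hall c ⟨_, rfl⟩

/-- Semisimple representations of products are conjugate to sums of tensor blocks. -/
theorem exists_blocks {H : Fin n → Type u} [∀ i, Group (H i)] {r : ℕ} (ρ : (∀ i, H i) →* SLC r)
    (hρ : Semisimple ρ) :
    ∃ (C : ℕ) (a : Fin C → Fin n → ℕ)
      (σ : ∀ c i, H i →* Matrix (Fin (a c i)) (Fin (a c i)) ℂ) (e : Idx a ≃ Fin r) (P : SLC r),
      C ≤ r ∧ (∀ c i, 0 < a c i ∧ a c i ≤ r) ∧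
      (∀ c i, Submodule.span ℂ (Set.range (σ c i)) = ⊤) ∧
      ∀ i x, ((P * ρ (Pi.mulSingle i x) * P⁻¹ : SLC r) : Matrix (Fin r) (Fin r) ℂ) =
        (bigRep a σ (Pi.mulSingle i x)).submatrix e.symm e.symm := by
  classical
  let R' : ∀ i, H i →* Module.End ℂ (Fin r → ℂ) := fun i =>
    { toFun := fun x =>
        Matrix.toLinAlgEquiv' (ρ (Pi.mulSingle i x) : Matrix (Fin r) (Fin r) ℂ)
      map_one' := by rw [Pi.mulSingle_one, map_one, Matrix.SpecialLinearGroup.coe_one, map_one]
      map_mul' := fun x y => by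
        rw [Pi.mulSingle_mul, map_mul, Matrix.SpecialLinearGroup.coe_mul, map_mul] }
  have hR : ∀ i x v, R' i x v =
      Matrix.mulVec (ρ (Pi.mulSingle i x) : Matrix (Fin r) (Fin r) ℂ) v := fun i x v =>
    Matrix.toLinAlgEquiv'_apply _ _
  have hinv : ∀ W : Submodule ℂ (Fin r → ℂ), (∀ i x, ∀ v ∈ W, R' i x v ∈ W) →
      ∀ g, ∀ v ∈ W, Matrix.mulVec (ρ g : Matrix (Fin r) (Fin r) ℂ) v ∈ W := by
    intro W hW g
    let S : Submonoid (∀ i, H i) :=
      { carrier := {g | ∀ v ∈ W, Matrix.mulVec (ρ g : Matrix (Fin r) (Fin r) ℂ) v ∈ W}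
        one_mem' := fun v hv => by simpa using hv
        mul_mem' := fun {g h} hg hh v hv => by
          rw [map_mul, Matrix.SpecialLinearGroup.coe_mul, ← Matrix.mulVec_mulVec]
          exact hg _ (hh v hv) }
    exact Submonoid.pi_mem_of_mulSingle_mem (H := S) g fun i v hv => hR i (g i) v ▸ hW i _ v hv
  obtain ⟨C', _, a', σ', b, hpos, hsp, hb⟩ := blocks_of_semisimple H R' (fun i j hij x y => by
    change R' i x * R' j y = R' j y * R' i x
    refine LinearMap.ext fun v => ?_
    simp only [Module.End.mul_apply, hR, Matrix.mulVec_mulVec, ← Matrix.SpecialLinearGroup.coe_mul,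
      ← map_mul]
    rw [(Pi.mulSingle_commute (f := H) hij x y).eq])
    (fun W hW => by
      obtain ⟨W', hW', hc⟩ := hρ W (hinv W hW)
      exact ⟨W', fun i x v hv => by rw [hR]; exact hW' _ v hv, hc⟩) _ ⊤ rfl
    (fun _ _ _ _ => Submodule.mem_top)
  set f := Fintype.equivFin C'
  let bV : Basis (Σ c, ∀ i, Fin (a' c i)) ℂ (Fin r → ℂ) := b.map Submodule.topEquiv
  let ef : (Σ c : Fin (Fintype.card C'), ∀ i, Fin (a' (f.symm c) i)) ≃ Σ c, ∀ i, Fin (a' c i) :=
    Equiv.sigmaCongrLeft (β := fun c => ∀ i, Fin (a' c i)) f.symm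
  let B0 : Basis (Idx fun c => a' (f.symm c)) ℂ (Fin r → ℂ) := bV.reindex ef.symm
  let e := B0.indexEquiv (Pi.basisFun ℂ (Fin r))
  have hidx : ∀ c i, 0 < a' (f.symm c) i ∧ a' (f.symm c) i ≤ r := fun c i => by
    refine ⟨hpos _ _, ?_⟩
    have h1 : Fintype.card (Idx fun c => a' (f.symm c)) = r := by
      rw [Fintype.card_congr e, Fintype.card_fin]
    rw [← h1, Fintype.card_sigma]
    refine le_trans ?_ (Finset.single_le_sum (fun c _ => Nat.zero_le _) (Finset.mem_univ c))
    rw [Fintype.card_pi]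
    simp only [Fintype.card_fin]
    exact Nat.le_of_dvd (Finset.prod_pos fun i _ => hpos _ _)
      (Finset.dvd_prod_of_mem _ (Finset.mem_univ i))
  have hC : Fintype.card C' ≤ r := by
    have h1 : Fintype.card (Idx fun c => a' (f.symm c)) = r := by
      rw [Fintype.card_congr e, Fintype.card_fin]
    rw [← h1, Fintype.card_sigma]
    refine le_trans (le_of_eq ?_) (Finset.sum_le_sum fun c _ =>
      (Fintype.card_pos_iff.2 ⟨fun i => ⟨0, hpos _ i⟩⟩ : 0 < Fintype.card (∀ i, Fin (a' (f.symm c) i))))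
    simp
  set B : Matrix (Fin r) (Fin r) ℂ := Matrix.of fun k q => (B0.reindex e) q k with hB
  have hBdet : B.det ≠ 0 := by
    have h : B = (Pi.basisFun ℂ (Fin r)).toMatrix (B0.reindex e) := by
      ext i a; simp [hB, Basis.toMatrix_apply]
    rw [h]
    let _ := (Pi.basisFun ℂ (Fin r)).invertibleToMatrix (B0.reindex e)
    exact (Matrix.isUnit_det_of_invertible ((Pi.basisFun ℂ (Fin r)).toMatrix (B0.reindex e))).ne_zero
  obtain ⟨z, hz⟩ : ∃ z : ℂ, z ^ r * B.det = 1 := by
    rcases Nat.eq_zero_or_pos r with hr | hr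
    · subst hr; exact ⟨1, by rw [Matrix.det_isEmpty, mul_one, one_pow]⟩
    · obtain ⟨z, hz⟩ := IsAlgClosed.exists_pow_nat_eq B.det⁻¹ hr
      exact ⟨z, by rw [hz, inv_mul_cancel₀ hBdet]⟩
  let Q : SLC r := ⟨z • B, by rw [Matrix.det_smul, Fintype.card_fin, hz]⟩
  refine ⟨Fintype.card C', fun c => a' (f.symm c), fun c i => σ' (f.symm c) i, e, Q⁻¹, hC, hidx,
    fun c i => hsp _ i, fun i x => ?_⟩
  set Th := (bigRep (fun c => a' (f.symm c)) (fun c i => σ' (f.symm c) i)
    (Pi.mulSingle i x)).submatrix e.symm e.symm with hTh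
  have key : ((ρ (Pi.mulSingle i x) : SLC r) : Matrix (Fin r) (Fin r) ℂ) * (z • B) =
      (z • B) * Th := by
    rw [Matrix.mul_smul, Matrix.smul_mul]
    congr 1
    ext k col
    obtain ⟨⟨c, q⟩, rfl⟩ := e.surjective col
    have hcol : ∀ c q, (fun k => B k (e ⟨c, q⟩)) = (b ⟨f.symm c, q⟩ : Fin r → ℂ) := fun c q => by
      funext k
      simp [hB, B0, bV, ef, Equiv.sigmaCongrLeft]
      rw [Equiv.symm_apply_apply]
    have h1 := congrFun (hb (f.symm c) i x q) k
    rw [hR, ← hcol c q] at h1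
    refine h1.trans ?_
    rw [Finset.sum_apply, Matrix.mul_apply, ← e.sum_comp, Fintype.sum_sigma,
      Finset.sum_eq_single c]
    · rw [← Finset.sum_subset (Finset.subset_univ
        (Finset.univ.image fun p => Function.update q i p))]
      · rw [Finset.sum_image (fun p _ p' _ h => by simpa using congrFun h i)]
        refine Finset.sum_congr rfl fun p _ => ?_
        rw [hTh, submatrix_apply, Equiv.symm_apply_apply, Equiv.symm_apply_apply, bigRep_single,
          blockDiagonal'_apply_eq, tens_single_apply, if_pos fun j hj => Function.update_of_ne hj _ _,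
          Function.update_self, Pi.smul_apply, smul_eq_mul, mul_comm,
          ← congrFun (hcol c (Function.update q i p)) k]
      · intro p _ hp
        rw [hTh, submatrix_apply, Equiv.symm_apply_apply, Equiv.symm_apply_apply, bigRep_single,
          blockDiagonal'_apply_eq, tens_single_apply, if_neg, mul_zero]
        exact fun h => hp (Finset.mem_image.2 ⟨p i, Finset.mem_univ _, funext fun j => by
          by_cases hj : j = i
          · subst hj; rw [Function.update_self]
          · rw [Function.update_of_ne hj, h j hj]⟩)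
    · intro c' _ hne
      refine Finset.sum_eq_zero fun p _ => ?_
      rw [hTh, submatrix_apply, Equiv.symm_apply_apply, Equiv.symm_apply_apply, bigRep_single,
        blockDiagonal'_apply_ne _ _ _ hne, mul_zero]
    · exact fun h => absurd (Finset.mem_univ c) h
  have hQ : ((Q⁻¹ : SLC r) : Matrix (Fin r) (Fin r) ℂ) * (z • B) = 1 := by
    change ((Q⁻¹ : SLC r) : Matrix (Fin r) (Fin r) ℂ) * (Q : Matrix (Fin r) (Fin r) ℂ) = 1
    rw [← Matrix.SpecialLinearGroup.coe_mul, inv_mul_cancel, Matrix.SpecialLinearGroup.coe_one]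
  rw [inv_inv, Matrix.SpecialLinearGroup.coe_mul, Matrix.SpecialLinearGroup.coe_mul, mul_assoc]
  change ((Q⁻¹ : SLC r) : Matrix (Fin r) (Fin r) ℂ) * (_ * (z • B)) = _
  rw [key, ← mul_assoc, hQ, one_mul]

end Vale.Agent.P002
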