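import Vale.Agent.P002.Torus
import Vale.Agent.P002.Prod.Tens

/-!
P002: the ring of functions of parameters in `ℂˣ` that are Laurent in each parameter and integral
on the grid of powers of a unit, and matrices over it.
-/

namespace Vale.Agent.P002

open Matrix

universe u

/-- The parameters on the grid. -/
def Grid {κ : Type} (t : κ → ℂˣ) : Prop := ∀ j, t j ∈ Set.range fun e : ℕ => fund ^ e

/-- The algebraic integers of the field. -/
noncomputable def OInt (M : ℕ) : Subring ℂ where
  carrier := {z | z ∈ field M ∧ IsIntegral ℤ z}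
  one_mem' := ⟨one_mem _, isIntegral_one⟩
  zero_mem' := ⟨zero_mem _, isIntegral_zero⟩
  add_mem' := fun ha hb => ⟨add_mem ha.1 hb.1, ha.2.add hb.2⟩
  mul_mem' := fun ha hb => ⟨mul_mem ha.1 hb.1, ha.2.mul hb.2⟩
  neg_mem' := fun ha => ⟨neg_mem ha.1, ha.2.neg⟩

variable {M : ℕ} {κ : Type} [DecidableEq κ]

/-- Laurent in each parameter and integral on the grid. -/
noncomputable def nice (M : ℕ) (κ : Type) [DecidableEq κ] : Subring ((κ → ℂˣ) → ℂ) where
  carrier := {f | (∀ t j, IsLaurent fun x => f (Function.update t j x)) ∧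
    ∀ t, Grid t → f t ∈ OInt M}
  one_mem' := ⟨fun _ _ => isLaurent_const 1, fun _ _ => one_mem _⟩
  zero_mem' := ⟨fun _ _ => isLaurent_const 0, fun _ _ => zero_mem _⟩
  add_mem' := fun ha hb => ⟨fun t j => (ha.1 t j).add (hb.1 t j),
    fun t ht => add_mem (ha.2 t ht) (hb.2 t ht)⟩
  mul_mem' := fun ha hb => ⟨fun t j => (ha.1 t j).mul (hb.1 t j),
    fun t ht => mul_mem (ha.2 t ht) (hb.2 t ht)⟩
  neg_mem' := fun {f} ha => ⟨fun t j => by
      have := (isLaurent_const (-1)).mul (ha.1 t j)
      simpa using this,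
    fun t ht => neg_mem (ha.2 t ht)⟩

/-- Evaluation at a parameter. -/
noncomputable def ev (t : κ → ℂˣ) : nice M κ →+* ℂ :=
  (Pi.evalRingHom (fun _ => ℂ) t).comp (nice M κ).subtype

theorem ev_apply (t : κ → ℂˣ) (f : nice M κ) : ev t f = f.1 t := rfl

theorem ev_laurent (f : nice M κ) (t : κ → ℂˣ) (j : κ) :
    IsLaurent fun x => ev (Function.update t j x) f := f.2.1 t j

theorem ev_mem (f : nice M κ) {t : κ → ℂˣ} (ht : Grid t) : ev t f ∈ OInt M := f.2.2 t ht

/-- A function Laurent in each parameter and zero on the grid is zero. -/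
theorem eq_zero_grid [Fintype κ] (F : (κ → ℂˣ) → ℂ)
    (hF : ∀ t j, IsLaurent fun x => F (Function.update t j x))
    (h0 : ∀ t, Grid t → F t = 0) (t : κ → ℂˣ) : F t = 0 := by
  set e := Fintype.equivFin κ
  have h := eq_zero_of_grid (fun s : Fin (Fintype.card κ) → ℂˣ => F fun p => s (e p))
    (fun s j => ?_) fund_infinite (fun s hs => h0 _ fun p => hs (e p)) (fun q => t (e.symm q))
  · simpa using h
  · have h1 := hF (fun p => s (e p)) (e.symm j)
    have h2 : ∀ x, (fun p => Function.update s j x (e p)) =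
        Function.update (fun p => s (e p)) (e.symm j) x := by
      intro x
      funext p
      by_cases hp : p = e.symm j
      · subst hp; simp
      · rw [Function.update_of_ne hp, Function.update_of_ne]
        exact fun h => hp (by rw [← h, Equiv.symm_apply_apply])
    simpa only [h2] using h1

theorem update_laurent (t : κ → ℂˣ) (j p : κ) (z : ℤ) :
    IsLaurent fun x => (((Function.update t j x p) ^ z : ℂˣ) : ℂ) := by
  by_cases h : p = j
  · subst h; simpa using isLaurent_zpow z
  · simpa [Function.update_of_ne h] using isLaurent_const ((t p ^ z : ℂˣ) : ℂ)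

/-- A parameter, as a unit. -/
noncomputable def var (p : κ) : (nice M κ)ˣ where
  val := ⟨fun t => (t p : ℂ), fun t j => by simpa using update_laurent t j p 1,
    fun t ht => by
      obtain ⟨k, hk⟩ := ht p
      simp only at hk ⊢
      rw [← hk]
      exact (Subgroup.pow_mem _ (fund_mem M) k).1⟩
  inv := ⟨fun t => ((t p)⁻¹ : ℂˣ), fun t j => by simpa using update_laurent t j p (-1),
    fun t ht => by
      obtain ⟨k, hk⟩ := ht p
      simp only at hk ⊢
      rw [← hk]
      exact (Subgroup.pow_mem _ (fund_mem M) k).2⟩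
  val_inv := Subtype.ext (funext fun t => by simp)
  inv_val := Subtype.ext (funext fun t => by simp)

theorem ev_var (t : κ → ℂˣ) (p : κ) : Units.map (ev (M := M) t).toMonoidHom (var p) = t p :=
  Units.ext rfl

/-- A constant unit of algebraic integers. -/
noncomputable def cst : intUnits M →* (nice M κ)ˣ where
  toFun c :=
    { val := ⟨fun _ => ((c : ℂˣ) : ℂ), fun _ _ => isLaurent_const _, fun _ _ => c.2.1⟩
      inv := ⟨fun _ => (((c : ℂˣ)⁻¹ : ℂˣ) : ℂ), fun _ _ => isLaurent_const _, fun _ _ => c.2.2⟩
      val_inv := Subtype.ext (funext fun t => by simp)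
      inv_val := Subtype.ext (funext fun t => by simp) }
  map_one' := Units.ext rfl
  map_mul' _ _ := Units.ext rfl

theorem ev_cst (t : κ → ℂˣ) (c : intUnits M) : Units.map (ev t).toMonoidHom (cst c) = c :=
  Units.ext rfl

section MatUnits

variable {R S : Type*} [CommRing R] [CommRing S] {d : ℕ}

/-- Diagonal matrices of units. -/
def diagU : (Fin d → Rˣ) →* (Matrix (Fin d) (Fin d) R)ˣ :=
  (Units.map (diagonalRingHom (Fin d) R).toMonoidHom).comp MulEquiv.piUnits.symm.toMonoidHom

theorem coe_diagU (D : Fin d → Rˣ) :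
    ((diagU D : (Matrix (Fin d) (Fin d) R)ˣ) : Matrix (Fin d) (Fin d) R) =
      diagonal fun p => (D p : R) := rfl

/-- A product of transvections as a unit. -/
def transU (L : List (TransvectionStruct (Fin d) R)) : (Matrix (Fin d) (Fin d) R)ˣ where
  val := (L.map TransvectionStruct.toMatrix).prod
  inv := (L.reverse.map (TransvectionStruct.toMatrix ∘ TransvectionStruct.inv)).prod
  val_inv := TransvectionStruct.prod_mul_reverse_inv_prod L
  inv_val := TransvectionStruct.reverse_inv_prod_mul_prod L

/-- Change of coefficients for units of matrices. -/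
def mapU (φ : R →+* S) : (Matrix (Fin d) (Fin d) R)ˣ →* (Matrix (Fin d) (Fin d) S)ˣ :=
  Units.map φ.mapMatrix.toMonoidHom

theorem mapU_diagU (φ : R →+* S) (D : Fin d → Rˣ) :
    mapU φ (diagU D) = diagU fun p => Units.map φ.toMonoidHom (D p) := by
  refine Units.ext ?_
  simp only [mapU, Units.coe_map, RingHom.toMonoidHom_eq_coe, MonoidHom.coe_coe, coe_diagU,
    RingHom.mapMatrix_apply, diagonal_map (map_zero φ)]

theorem mapU_transU (φ : R →+* S) (L : List (TransvectionStruct (Fin d) R)) :
    mapU φ (transU L) = transU (L.map fun x => ⟨x.i, x.j, x.hij, φ x.c⟩) := by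
  refine Units.ext ?_
  change φ.mapMatrix (L.map TransvectionStruct.toMatrix).prod = (List.map _ (L.map _)).prod
  rw [map_list_prod, List.map_map, List.map_map]
  congr 1
  refine List.map_congr_left fun x _ => ?_
  simp only [Function.comp_apply, TransvectionStruct.toMatrix, transvection,
    RingHom.mapMatrix_apply]
  rw [Matrix.map_add φ (map_add φ), Matrix.map_one φ (map_zero φ) (map_one φ),
    Matrix.map_single _ _ _ φ]

theorem det_transU (L : List (TransvectionStruct (Fin d) R)) :
    ((transU L : (Matrix (Fin d) (Fin d) R)ˣ) : Matrix (Fin d) (Fin d) R).det = 1 :=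
  TransvectionStruct.det_toMatrix_prod L

/-- An invertible matrix is a product of transvections, a diagonal and transvections. -/
theorem exists_ldu (X : Matrix (Fin d) (Fin d) ℂ) (hX : IsUnit X) :
    ∃ (L L' : List (TransvectionStruct (Fin d) ℂ)) (D : Fin d → ℂˣ),
      X = ((transU L * diagU D * transU L' : (Matrix (Fin d) (Fin d) ℂ)ˣ) :
        Matrix (Fin d) (Fin d) ℂ) := by
  obtain ⟨L, L', D, h⟩ := Pivot.exists_list_transvec_mul_diagonal_mul_list_transvec X
  have hD : ∀ p, D p ≠ 0 := fun p hp => by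
    have h1 := ((Matrix.isUnit_iff_isUnit_det X).1 hX).ne_zero
    rw [h, det_mul, det_mul, det_diagonal, Finset.prod_eq_zero (Finset.mem_univ p) hp] at h1
    simp at h1
  exact ⟨L, L', fun p => Units.mk0 (D p) (hD p), h⟩

/-- A matrix of finite order is diagonalisable, with roots of unity. -/
theorem exists_root_diag (X : Matrix (Fin d) (Fin d) ℂ) {m : ℕ} (hm : 0 < m) (hX : X ^ m = 1) :
    ∃ (P : (Matrix (Fin d) (Fin d) ℂ)ˣ) (ζ : Fin d → ℂˣ), (∀ p, ζ p ^ m = 1) ∧
      X = ((P * diagU ζ * P⁻¹ : (Matrix (Fin d) (Fin d) ℂ)ˣ) : Matrix (Fin d) (Fin d) ℂ) := by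
  classical
  obtain ⟨w, hw⟩ : ∃ w : ℂ, IsPrimitiveRoot w m :=
    ⟨_, Complex.isPrimitiveRoot_exp m hm.ne'⟩
  set E : Set (Fin d → ℂ) := {v | ∃ k : ℕ, X.mulVec v = w ^ k • v} with hE
  have hsum : ∀ j < m, (∑ k ∈ Finset.range m, (w ^ j) ^ k) = if j = 0 then (m : ℂ) else 0 := by
    intro j hj
    split_ifs with h
    · simp [h]
    · have h1 : w ^ j ≠ 1 := hw.pow_ne_one_of_pos_of_lt h hj
      rw [geom_sum_eq h1, ← pow_mul, mul_comm, pow_mul, hw.pow_eq_one, one_pow, sub_self, zero_div]
  have hspan : Submodule.span ℂ E = ⊤ := by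
    refine eq_top_iff.2 fun v _ => ?_
    -- the projections to the eigenspaces
    set y : ℕ → (Fin d → ℂ) := fun j => ∑ k ∈ Finset.range m, (w ^ j) ^ k • (X ^ k).mulVec v with hy
    have hyE : ∀ j, y j ∈ E := by
      intro j
      refine ⟨(m - 1) * j, ?_⟩
      set f : ℕ → (Fin d → ℂ) := fun k => (w ^ j) ^ k • (X ^ k).mulVec v with hf
      have hw1 : (w ^ j) ^ m = 1 := by rw [← pow_mul, mul_comm, pow_mul, hw.pow_eq_one, one_pow]
      have hfm : f m = f 0 := by simp [hf, hX, hw1]
      have h1 : X.mulVec (y j) = ∑ k ∈ Finset.range m, (w ^ ((m - 1) * j)) • f (k + 1) := by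
        rw [hy, Matrix.mulVec_sum]
        refine Finset.sum_congr rfl fun k _ => ?_
        rw [Matrix.mulVec_smul, Matrix.mulVec_mulVec, ← pow_succ', smul_smul]
        congr 1
        rw [← pow_mul, ← pow_mul, ← pow_add,
          show (m - 1) * j + j * (k + 1) = m * j + j * k by
            obtain ⟨m', rfl⟩ : ∃ m', m = m' + 1 := ⟨m - 1, by omega⟩
            simp; ring,
          pow_add, pow_mul w m j, hw.pow_eq_one, one_pow, one_mul]
      rw [h1, ← Finset.smul_sum]
      congr 1
      rw [show y j = ∑ k ∈ Finset.range m, f k from rfl]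
      have h2 := Finset.sum_range_succ f m
      rw [Finset.sum_range_succ' f m, hfm] at h2
      exact add_right_cancel h2
    have hv : v = (m : ℂ)⁻¹ • ∑ j ∈ Finset.range m, y j := by
      have h1 : ∑ j ∈ Finset.range m, y j = (m : ℂ) • v := by
        simp only [hy]
        rw [Finset.sum_comm]
        simp only [← Finset.sum_smul]
        rw [Finset.sum_eq_single 0]
        · simp
        · intro k hk hk0
          rw [Finset.sum_congr rfl fun j _ => by rw [← pow_mul, mul_comm, pow_mul],
            hsum k (Finset.mem_range.1 hk), if_neg hk0, zero_smul]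
        · intro h; exact absurd (Finset.mem_range.2 hm) h
      rw [h1, smul_smul, inv_mul_cancel₀ (Nat.cast_ne_zero.2 hm.ne'), one_smul]
    rw [hv]
    exact Submodule.smul_mem _ _ (Submodule.sum_mem _ fun j _ => Submodule.subset_span (hyE j))
  obtain ⟨S, hS, hSspan, hSli⟩ := exists_linearIndependent ℂ E
  let B0 := Module.Basis.mk hSli (show ⊤ ≤ _ by rw [Subtype.range_coe, hSspan, hspan])
  have : Fintype S := FiniteDimensional.fintypeBasisIndex B0
  have hcardS : Fintype.card S = d := by rw [← Module.finrank_eq_card_basis B0]; simp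
  let B := B0.reindex (Fintype.equivFinOfCardEq hcardS)
  have hB : ∀ p, B p ∈ E := fun p => by
    simp only [B, Module.Basis.reindex_apply, B0, Module.Basis.mk_apply]
    exact hS ((Fintype.equivFinOfCardEq hcardS).symm p).2
  choose k hk using hB
  have hdet : IsUnit (Matrix.of fun i p => B p i : Matrix (Fin d) (Fin d) ℂ) :=
    Matrix.linearIndependent_cols_iff_isUnit.1 B.linearIndependent
  let P := hdet.unit
  let wu : ℂˣ := Units.mk0 w (hw.ne_zero hm.ne')
  refine ⟨P, fun p => wu ^ k p, fun p => Units.ext ?_, ?_⟩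
  · simp only [wu, Units.val_pow_eq_pow_val, Units.val_mk0, Units.val_one, ← pow_mul]
    rw [mul_comm, pow_mul, hw.pow_eq_one, one_pow]
  · have h1 : X * (P : Matrix (Fin d) (Fin d) ℂ) =
        (P : Matrix (Fin d) (Fin d) ℂ) * diagonal fun p => w ^ k p := by
      ext i p
      rw [mul_diagonal]
      have h := congrFun (hk p) i
      simp only [Matrix.mulVec, dotProduct, Pi.smul_apply, smul_eq_mul] at h
      simp only [Matrix.mul_apply, P, IsUnit.unit_spec, of_apply]
      rw [h, mul_comm]
    rw [Units.val_mul, Units.val_mul, coe_diagU]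
    simp only [wu, Units.val_pow_eq_pow_val, Units.val_mk0]
    rw [← h1, mul_assoc, Units.mul_inv, mul_one]

end MatUnits

/-- A tensor product of full algebras is full. -/
theorem span_tens {n : ℕ} {H : Fin n → Type u} [∀ i, Monoid (H i)] (a : Fin n → ℕ)
    (σ : ∀ i, H i →* Matrix (Fin (a i)) (Fin (a i)) ℂ)
    (h : ∀ i, Submodule.span ℂ (Set.range (σ i)) = ⊤) :
    Submodule.span ℂ (Set.range fun g : ∀ i, H i => tens a fun i => σ i (g i)) = ⊤ := by
  classical
  let Φ : (∀ i, H i) →* Matrix (∀ i, Fin (a i)) (∀ i, Fin (a i)) ℂ :=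
    (tens a).comp (MonoidHom.pi fun i => (σ i).comp (Pi.evalMonoidHom H i))
  set A := Algebra.adjoin ℂ (Set.range Φ) with hA
  have hAs : Subalgebra.toSubmodule A = Submodule.span ℂ (Set.range Φ) := by
    rw [hA, Algebra.adjoin_eq_span, ← MonoidHom.coe_mrange, Submonoid.closure_eq]
  have hsingle : ∀ i X, tens a (Pi.mulSingle i X) ∈ A := by
    intro i X
    have hX : X ∈ Submodule.span ℂ (Set.range (σ i)) := h i ▸ Submodule.mem_top
    induction hX using Submodule.span_induction with
    | mem X hX =>
      obtain ⟨x, rfl⟩ := hX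
      refine Algebra.subset_adjoin ⟨Pi.mulSingle i x, ?_⟩
      change tens a (fun j => σ j (Pi.mulSingle (M := H) i x j)) = _
      congr 1
      funext j
      exact Pi.apply_mulSingle (fun j => σ j) (fun j => map_one _) i x j
    | zero =>
      have h0 : tens a (Pi.mulSingle i (0 : Matrix (Fin (a i)) (Fin (a i)) ℂ)) = 0 := by
        ext p q
        simp [tens_single_apply]
      rw [h0]; exact A.zero_mem
    | add X Y _ _ hX hY =>
      have h0 : tens a (Pi.mulSingle i (X + Y)) =
          tens a (Pi.mulSingle i X) + tens a (Pi.mulSingle i Y) := by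
        ext p q
        simp only [tens_single_apply, Matrix.add_apply]
        split_ifs <;> simp
      rw [h0]; exact A.add_mem hX hY
    | smul t X _ hX =>
      have h0 : tens a (Pi.mulSingle i (t • X)) = t • tens a (Pi.mulSingle i X) := by
        ext p q
        simp only [tens_single_apply, Matrix.smul_apply]
        split_ifs <;> simp
      rw [h0]; exact A.smul_mem hX t
  have hall : ∀ T, tens a T ∈ A := fun T =>
    Submonoid.pi_mem_of_mulSingle_mem (H := A.toSubmonoid.comap (tens a)) T fun i => hsingle i (T i)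
  change Submodule.span ℂ (Set.range Φ) = ⊤
  rw [← hAs, eq_top_iff]
  rintro X -
  rw [matrix_eq_sum_single X]
  refine A.sum_mem fun p _ => A.sum_mem fun q _ => ?_
  have h1 : Matrix.single p q (X p q) =
      X p q • tens a (fun i => Matrix.single (p i) (q i) (1 : ℂ)) := by
    ext p' q'
    simp only [Matrix.smul_apply, tens_apply, Matrix.single_apply, smul_eq_mul]
    by_cases hpq : p = p' ∧ q = q'
    · obtain ⟨rfl, rfl⟩ := hpq
      simp
    · rw [if_neg hpq]
      obtain ⟨i, hi⟩ : ∃ i, ¬(p i = p' i ∧ q i = q' i) := by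
        by_contra hcon
        push Not at hcon
        exact hpq ⟨funext fun i => (hcon i).1, funext fun i => (hcon i).2⟩
      rw [Finset.prod_eq_zero (Finset.mem_univ i) (if_neg hi), mul_zero]
  rw [h1]
  exact A.smul_mem (hall _) _

end Vale.Agent.P002
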